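import Vale.Agent.P167.H262.Wst
import Vale.Agent.P167.H816.Bank
import Vale.Agent.P167.FKA.Out

/-!
# P167: the worst boundary condition for crossings, in terms of `FK.Pr`, `0 < Q ≤ 1`

`CI E A B`: a path of open squares of `E` joins `A` and `B`. `worst_P`: for every configuration `η`
outside of `E` its probability is at least the one for a configuration `ζ` which joins all the boundary
sites of `E` (for a rectangle `ζ = eta1`: `worst_rect`). `worst_D` etc.: the dual statements.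
-/

set_option autoImplicit false
set_option linter.unusedSectionVars false

namespace Vale.Agent.P167.H262

open Finset Vale.Agent.P167.FK Vale.Agent.P167.H816
open Relation (ReflTransGen)
open Vale.Agent.P145.FB (PStep PConn)

variable {Q : ℝ} {E D : Finset (ℤ × ℤ)} {η ζ : Cfg}

/-- `A` and `B` are joined by open squares of `E`. -/
def CI (E : Finset (ℤ × ℤ)) (A B : Set (ℤ × ℤ)) : Set Cfg :=
  {ω | ∃ u ∈ A, ∃ v ∈ B, ReflTransGen (PStep (op ω ∩ ↑E)) u v}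

/-- `A` and `B` are dually joined by closed squares of `E`. -/
def CD (E : Finset (ℤ × ℤ)) (A B : Set (ℤ × ℤ)) : Set Cfg :=
  {ω | ∃ u ∈ A, ∃ v ∈ B, ReflTransGen (PStep ((op ω)ᶜ ∩ ↑E)) u v}

/-- The even sites which are corners of squares outside of `E`. -/
def Pb (E : Finset (ℤ × ℤ)) : Set (ℤ × ℤ) := {s | ∃ b, b ∉ E ∧ (s = pa b ∨ s = pb b)}

/-- The odd sites which are corners of squares outside of `E`. -/
def Db (E : Finset (ℤ × ℤ)) : Set (ℤ × ℤ) := {s | ∃ b, b ∉ E ∧ (s = da b ∨ s = db b)}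

theorem even_Pb {s : ℤ × ℤ} (h : s ∈ Pb E) : Even (s.1 + s.2) := by
  obtain ⟨b, -, rfl | rfl⟩ := h
  · exact even_pa b
  · exact even_pb b

theorem odd_Db {s : ℤ × ℤ} (h : s ∈ Db E) : Odd (s.1 + s.2) := by
  obtain ⟨b, -, rfl | rfl⟩ := h
  · exact odd_da b
  · exact odd_db b

theorem cf_true_out {v : ℤ × ℤ} (h : cf E η ∅ v = true) : v ∉ E := by
  intro hv
  simp [cf, hv] at h

theorem cf_false_out {v : ℤ × ℤ} (h : cf E η E v = false) : v ∉ E := by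
  intro hv
  simp [cf, hv] at h

theorem op_cf_inter {S : Finset (ℤ × ℤ)} : op (cf E η S) ∩ ↑E = op (cf E eta0 S) := by
  ext v
  by_cases hv : v ∈ E
  · simp [op, cf, hv]
  · simp [op, cf, hv, eta0]

theorem op_cf_inter_dual {S : Finset (ℤ × ℤ)} :
    (op (cf E η (E \ S)))ᶜ ∩ ↑E = (op (cf E eta1 (E \ S)))ᶜ := by
  ext v
  by_cases hv : v ∈ E
  · simp [op, cf, hv]
  · simp [op, cf, hv, eta1]

theorem PCs_bot : PCs (cf E eta0 ∅) = ⊥ := by
  have h0 : ∀ v, cf E eta0 ∅ v = false := by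
    intro v
    by_cases hv : v ∈ E <;> simp [cf, hv, eta0]
  ext s t
  constructor
  · rintro (h | ⟨-, h⟩)
    · exact h
    · rcases Relation.ReflTransGen.cases_head h with h | ⟨r, h, -⟩
      · exact h
      · exfalso
        have h1 : cf E eta0 ∅ (min s.1 r.1, min s.2 r.2) = true := h.2.2
        rw [h0] at h1
        exact Bool.false_ne_true h1
  · intro h
    exact Or.inl h

theorem DCs_bot : DCs (cf E eta1 E) = ⊥ := by
  have h0 : ∀ v, cf E eta1 E v = true := by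
    intro v
    by_cases hv : v ∈ E <;> simp [cf, hv, eta1]
  ext s t
  constructor
  · rintro (h | ⟨-, h⟩)
    · exact h
    · rcases Relation.ReflTransGen.cases_head h with h | ⟨r, h, -⟩
      · exact h
      · exfalso
        have h1 : ¬ cf E eta1 E (min s.1 r.1, min s.2 r.2) = true := h.2.2
        exact h1 (h0 _)
  · intro h
    exact Or.inl h

theorem con_P {S : Finset (ℤ × ℤ)} (hS : S ⊆ E) {u v : ℤ × ℤ} (hu : Even (u.1 + u.2)) :
    ReflTransGen (PStep (op (cf E η S) ∩ ↑E)) u v ↔ con pa pb ⊥ S u v := by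
  rw [op_cf_inter, ← PCs_bot (E := E)]
  exact PC_cf hS hu

theorem con_D {S : Finset (ℤ × ℤ)} (hS : S ⊆ E) {u v : ℤ × ℤ} (hu : Odd (u.1 + u.2)) :
    ReflTransGen (PStep ((op (cf E η (E \ S)))ᶜ ∩ ↑E)) u v ↔ con da db ⊥ S u v := by
  rw [op_cf_inter_dual, ← DCs_bot (E := E)]
  exact DC_cf hS hu

theorem CI_iff {A B : Set (ℤ × ℤ)} (hA : A ⊆ Pb E) {S : Finset (ℤ × ℤ)} (hS : S ⊆ E) :
    cf E η S ∈ CI E A B ↔ ¬ H816.Sep pa pb ⊥ A B S := by
  unfold H816.Sep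
  push Not
  constructor
  · rintro ⟨u, hu, v, hv, h⟩
    exact ⟨u, hu, v, hv, (con_P hS (even_Pb (hA hu))).1 h⟩
  · rintro ⟨u, hu, v, hv, h⟩
    exact ⟨u, hu, v, hv, (con_P hS (even_Pb (hA hu))).2 h⟩

theorem CD_iff {A B : Set (ℤ × ℤ)} (hA : A ⊆ Db E) {S : Finset (ℤ × ℤ)} (hS : S ⊆ E) :
    cf E η (E \ S) ∈ CD E A B ↔ ¬ H816.Sep da db ⊥ A B S := by
  unfold H816.Sep
  push Not
  constructor
  · rintro ⟨u, hu, v, hv, h⟩
    exact ⟨u, hu, v, hv, (con_D hS (odd_Db (hA hu))).1 h⟩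
  · rintro ⟨u, hu, v, hv, h⟩
    exact ⟨u, hu, v, hv, (con_D hS (odd_Db (hA hu))).2 h⟩

theorem PCs_le_wir : PCs (cf E η ∅) ≤ ⊥ ⊔ wir (Pb E) := by
  rw [bot_sup_eq]
  rintro s t (h | ⟨hs, h⟩)
  · exact Or.inl h
  · by_cases hst : s = t
    · exact Or.inl hst
    · obtain ⟨b, hb, hb'⟩ := first_step hs h hst
      obtain ⟨c, hc, hc'⟩ := first_step (PC_even h hs) (PC_symm h) (Ne.symm hst)
      exact Or.inr ⟨⟨b, cf_true_out hb, hb'⟩, ⟨c, cf_true_out hc, hc'⟩⟩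

theorem DCs_le_wir : DCs (cf E η E) ≤ ⊥ ⊔ wir (Db E) := by
  rw [bot_sup_eq]
  rintro s t (h | ⟨hs, h⟩)
  · exact Or.inl h
  · by_cases hst : s = t
    · exact Or.inl hst
    · obtain ⟨b, hb, hb'⟩ := first_step_dual hs h hst
      obtain ⟨c, hc, hc'⟩ := first_step_dual (DC_odd h hs) (DC_symm h) (Ne.symm hst)
      exact Or.inr ⟨⟨b, cf_false_out hb, hb'⟩, ⟨c, cf_false_out hc, hc'⟩⟩

/-- **Worst boundary condition for a crossing**: `ζ` joins all the boundary sites of `E`. -/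
theorem worst_P (hQ : 0 < Q) (hQ1 : Q ≤ 1) (hη : Good η) (hζ : Good ζ)
    (hZ : ∀ s ∈ Pb E, ∀ t ∈ Pb E, s ∈ Ev E → t ∈ Ev E → PC (cf E ζ ∅) s t)
    {A : Set (ℤ × ℤ)} (hA : A ⊆ Pb E) (B : Set (ℤ × ℤ)) :
    Pr Q E ζ (CI E A B) ≤ Pr Q E η (CI E A B) := by
  have hq : 0 < Q ^ 2 := pow_pos hQ 2
  have h1 := worst pa pb E (w := fun _ => Q) (q := Q ^ 2) (fun _ => hQ) hq (pow_le_one' hQ hQ1)
    (r := ⊥) B (r' := PCs (cf E η ∅)) (Z := Pb E) bot_le PCs_le_wir hA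
  have e1 : ∀ (ω : Cfg), Good ω → Pr Q E ω (CI E A B) =
      1 - GP pa pb (fun _ => Q) (Q ^ 2) E (PCs (cf E ω ∅)) (H816.Sep pa pb ⊥ A B) := by
    intro ω hω
    rw [Pr_eq_GP hQ hω, ← GP_not pa pb E (fun _ => hQ.le) hq]
    exact GP_congr pa pb E hq (fun _ _ _ _ => Iff.rfl) fun S hS => CI_iff hA hS
  have e2 : GP pa pb (fun _ => Q) (Q ^ 2) E (PCs (cf E ζ ∅)) (H816.Sep pa pb ⊥ A B) =
      GP pa pb (fun _ => Q) (Q ^ 2) E (⊥ ⊔ wir (Pb E)) (H816.Sep pa pb ⊥ A B) := by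
    refine GP_congr pa pb E hq (fun x hx y hy => ⟨fun h => PCs_le_wir h, fun h => ?_⟩)
      fun _ _ => Iff.rfl
    rw [bot_sup_eq] at h
    rcases h with h | ⟨h, h'⟩
    · exact Or.inl h
    · rw [PCs_iff (even_Pb h)]
      exact hZ x h y h' ((mem_ends _ _ _).1 hx) ((mem_ends _ _ _).1 hy)
  rw [e1 η hη, e1 ζ hζ, e2]
  linarith

/-- **Worst boundary condition for a dual crossing**: `ζ` dually joins all the boundary sites. -/
theorem worst_D (hQ : 0 < Q) (hQ1 : Q ≤ 1) (hη : Good η) (hζ : Good ζ)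
    (hZ : ∀ s ∈ Db E, ∀ t ∈ Db E, s ∈ Od E → t ∈ Od E → DC (cf E ζ E) s t)
    {A : Set (ℤ × ℤ)} (hA : A ⊆ Db E) (B : Set (ℤ × ℤ)) :
    Pr Q E ζ (CD E A B) ≤ Pr Q E η (CD E A B) := by
  have hq : 0 < Q ^ 2 := pow_pos hQ 2
  have h1 := worst da db E (w := fun _ => Q) (q := Q ^ 2) (fun _ => hQ) hq (pow_le_one' hQ hQ1)
    (r := ⊥) B (r' := DCs (cf E η E)) (Z := Db E) bot_le DCs_le_wir hA
  have e1 : ∀ (ω : Cfg), Good ω → Pr Q E ω (CD E A B) =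
      1 - GP da db (fun _ => Q) (Q ^ 2) E (DCs (cf E ω E)) (H816.Sep da db ⊥ A B) := by
    intro ω hω
    rw [Pr_eq_GP_dual hQ hω, ← GP_not da db E (fun _ => hQ.le) hq]
    exact GP_congr da db E hq (fun _ _ _ _ => Iff.rfl) fun S hS => CD_iff hA hS
  have e2 : GP da db (fun _ => Q) (Q ^ 2) E (DCs (cf E ζ E)) (H816.Sep da db ⊥ A B) =
      GP da db (fun _ => Q) (Q ^ 2) E (⊥ ⊔ wir (Db E)) (H816.Sep da db ⊥ A B) := by
    refine GP_congr da db E hq (fun x hx y hy => ⟨fun h => DCs_le_wir h, fun h => ?_⟩)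
      fun _ _ => Iff.rfl
    rw [bot_sup_eq] at h
    rcases h with h | ⟨h, h'⟩
    · exact Or.inl h
    · rw [DCs_iff (odd_Db h)]
      exact hZ x h y h' ((mem_ends _ _ _).1 hx) ((mem_ends _ _ _).1 hy)
  rw [e1 η hη, e1 ζ hζ, e2]
  linarith

/-! ### Larger domains -/

/-- In any domain `D ⊇ E`, with any configuration outside. -/
theorem worst_P_dom (hQ : 0 < Q) (hQ1 : Q ≤ 1) (hη : Good η) (hζ : Good ζ) (hED : E ⊆ D)
    (hZ : ∀ s ∈ Pb E, ∀ t ∈ Pb E, s ∈ Ev E → t ∈ Ev E → PC (cf E ζ ∅) s t)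
    {A : Set (ℤ × ℤ)} (hA : A ⊆ Pb E) (B : Set (ℤ × ℤ)) :
    Pr Q E ζ (CI E A B) ≤ Pr Q D η (CI E A B) :=
  le_Pr_of_forall hQ hη hED fun S _ =>
    worst_P hQ hQ1 (good_cf D hη S) hζ hZ hA B

theorem worst_D_dom (hQ : 0 < Q) (hQ1 : Q ≤ 1) (hη : Good η) (hζ : Good ζ) (hED : E ⊆ D)
    (hZ : ∀ s ∈ Db E, ∀ t ∈ Db E, s ∈ Od E → t ∈ Od E → DC (cf E ζ E) s t)
    {A : Set (ℤ × ℤ)} (hA : A ⊆ Db E) (B : Set (ℤ × ℤ)) :
    Pr Q E ζ (CD E A B) ≤ Pr Q D η (CD E A B) :=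
  le_Pr_of_forall hQ hη hED fun S _ =>
    worst_D hQ hQ1 (good_cf D hη S) hζ hZ hA B

/-- `G` does not depend on the squares of `E`. -/
def Out (E : Finset (ℤ × ℤ)) (G : Cfg → ℝ) : Prop :=
  ∀ ω ω' : Cfg, (∀ v, v ∉ E → ω v = ω' v) → G ω = G ω'

/-- The conditional form: `G ≥ 0` does not depend on the squares of `E`. -/
theorem cond_ge (hQ : 0 < Q) (hη : Good η) (hED : E ⊆ D) {A : Set Cfg} {c : ℝ}
    (hc : ∀ S ⊆ D, c ≤ Pr Q E (cf D η S) A) {G : Cfg → ℝ} (hG : Out E G)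
    (hG0 : ∀ S ⊆ D, 0 ≤ G (cf D η S)) :
    c * Ex Q D η G ≤ Ex Q D η (fun ω => G ω * A.indicator 1 ω) := by
  have h1 := H259.f_markov Q E D η (fun ω => G ω * A.indicator 1 ω) hQ hED hη
  rw [h1, ← FKA.Ex_mul_left]
  refine FKA.Ex_mono hQ fun S hS => ?_
  have h2 : Ex Q E (cf D η S) (fun ω => G ω * A.indicator 1 ω) =
      G (cf D η S) * Pr Q E (cf D η S) A := by
    rw [Pr, ← FKA.Ex_mul_left]
    refine FKA.Ex_congr fun T _ => ?_
    rw [hG (cf E (cf D η S) T) (cf D η S) fun v hv => FKA.cf_out hv]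
  rw [h2, mul_comm]
  exact mul_le_mul_of_nonneg_left (hc S hS) (hG0 S hS)

/-! ### Rectangles -/

/-- The squares of the rectangle `[a, b] × [c, d]`. -/
noncomputable def Rsq (a b c d : ℤ) : Finset (ℤ × ℤ) := Finset.Ico a b ×ˢ Finset.Ico c d

theorem mem_Rsq {a b c d : ℤ} {v : ℤ × ℤ} :
    v ∈ Rsq a b c d ↔ a ≤ v.1 ∧ v.1 < b ∧ c ≤ v.2 ∧ v.2 < d := by
  simp only [Rsq, Finset.mem_product, Finset.mem_Ico]
  tauto

theorem Pb_rect {a b c d : ℤ} {s : ℤ × ℤ} (h : s ∈ Pb (Rsq a b c d)) :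
    s.1 ≤ a ∨ b - 1 < s.1 ∨ s.2 ≤ c ∨ d - 1 < s.2 := by
  obtain ⟨v, hv, hs⟩ := h
  rw [mem_Rsq] at hv
  unfold pa pb at hs
  split_ifs at hs <;> rcases hs with rfl | rfl <;> (try simp only) <;> omega

theorem Db_rect {a b c d : ℤ} {s : ℤ × ℤ} (h : s ∈ Db (Rsq a b c d)) :
    s.1 ≤ a ∨ b - 1 < s.1 ∨ s.2 ≤ c ∨ d - 1 < s.2 := by
  obtain ⟨v, hv, hs⟩ := h
  rw [mem_Rsq] at hv
  unfold da db at hs
  split_ifs at hs <;> rcases hs with rfl | rfl <;> (try simp only) <;> omega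

theorem mem_Pb_rect {a b c d : ℤ} {s : ℤ × ℤ} (he : Even (s.1 + s.2))
    (h : s.1 ≤ a ∨ b ≤ s.1 ∨ s.2 ≤ c ∨ d ≤ s.2) : s ∈ Pb (Rsq a b c d) := by
  rw [Int.even_iff] at he
  rcases h with h | h | h | h
  · refine ⟨(s.1 - 1, s.2), by rw [mem_Rsq]; simp only; omega, Or.inr ?_⟩
    rw [pb, if_neg (by rw [Int.even_iff]; simp only; omega)]
    ext <;> simp
  · refine ⟨(s.1, s.2), by rw [mem_Rsq]; simp only; omega, Or.inl ?_⟩
    rw [pa, if_pos (by rw [Int.even_iff]; exact he)]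
  · refine ⟨(s.1, s.2 - 1), by rw [mem_Rsq]; simp only; omega, Or.inl ?_⟩
    rw [pa, if_neg (by rw [Int.even_iff]; simp only; omega)]
    ext <;> simp
  · refine ⟨(s.1, s.2), by rw [mem_Rsq]; simp only; omega, Or.inl ?_⟩
    rw [pa, if_pos (by rw [Int.even_iff]; exact he)]

theorem mem_Db_rect {a b c d : ℤ} {s : ℤ × ℤ} (he : Odd (s.1 + s.2))
    (h : s.1 ≤ a ∨ b ≤ s.1 ∨ s.2 ≤ c ∨ d ≤ s.2) : s ∈ Db (Rsq a b c d) := by
  rw [Int.odd_iff] at he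
  rcases h with h | h | h | h
  · refine ⟨(s.1 - 1, s.2), by rw [mem_Rsq]; simp only; omega, Or.inr ?_⟩
    rw [db, if_pos (by rw [Int.even_iff]; simp only; omega)]
    ext <;> simp
  · refine ⟨(s.1, s.2), by rw [mem_Rsq]; simp only; omega, Or.inl ?_⟩
    rw [da, if_neg (by rw [Int.even_iff]; simp only; omega)]
  · refine ⟨(s.1, s.2 - 1), by rw [mem_Rsq]; simp only; omega, Or.inl ?_⟩
    rw [da, if_pos (by rw [Int.even_iff]; simp only; omega)]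
    ext <;> simp
  · refine ⟨(s.1, s.2), by rw [mem_Rsq]; simp only; omega, Or.inl ?_⟩
    rw [da, if_neg (by rw [Int.even_iff]; simp only; omega)]

/-- The sites of the rectangle. -/
def Rsi (a b c d : ℤ) : Set (ℤ × ℤ) := {z | a ≤ z.1 ∧ z.1 ≤ b ∧ c ≤ z.2 ∧ z.2 ≤ d}

theorem rtg_rect {a b c d : ℤ} {F : Set (ℤ × ℤ)} {u v : ℤ × ℤ} (hu : u ∈ Rsi a b c d) :
    ReflTransGen (PStep (F ∩ ↑(Rsq a b c d))) u v ↔ PConn F (Rsi a b c d) u v := by
  constructor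
  · intro h
    induction h with
    | refl => exact ⟨hu, ReflTransGen.refl⟩
    | @tail x y _ h1 ih =>
      refine ih.tail ⟨h1.1, h1.2.1, h1.2.2.1⟩ ?_
      have h2 : (min x.1 y.1, min x.2 y.2) ∈ Rsq a b c d := Finset.mem_coe.1 h1.2.2.2
      have h3 := h1.1
      have h4 := h1.2.1
      rw [mem_Rsq] at h2
      simp only at h2
      show a ≤ y.1 ∧ y.1 ≤ b ∧ c ≤ y.2 ∧ y.2 ≤ d
      omega
  · rintro ⟨-, h⟩
    have key : v ∈ Rsi a b c d ∧ ReflTransGen (PStep (F ∩ ↑(Rsq a b c d))) u v := by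
      induction h with
      | refl => exact ⟨hu, ReflTransGen.refl⟩
      | @tail x y _ h1 ih =>
        refine ⟨h1.2, ih.2.tail ⟨h1.1.1, h1.1.2.1, h1.1.2.2, Finset.mem_coe.2 ?_⟩⟩
        have h2 : a ≤ x.1 ∧ x.1 ≤ b ∧ c ≤ x.2 ∧ x.2 ≤ d := ih.1
        have h3 : a ≤ y.1 ∧ y.1 ≤ b ∧ c ≤ y.2 ∧ y.2 ≤ d := h1.2
        have h4 := h1.1.1
        have h5 := h1.1.2.1
        rw [mem_Rsq]
        simp only
        omega
    exact key.2

theorem outside_P {a b c d : ℤ} {s t : ℤ × ℤ} (hs : s ∈ Pb (Rsq a b c d))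
    (ht : t ∈ Pb (Rsq a b c d)) : PC (cf (Rsq a b c d) eta1 ∅) s t := by
  refine FKA.outside_conn (a := a) (b := b - 1) (c := c) (d := d - 1) (fun v hv => ?_)
    (even_Pb hs) (even_Pb ht) (Pb_rect hs) (Pb_rect ht)
  have h : v ∉ Rsq a b c d := by
    rw [mem_Rsq]
    omega
  show cf _ _ _ v = true
  rw [FKA.cf_out h]
  rfl

theorem outside_D {a b c d : ℤ} {s t : ℤ × ℤ} (hs : s ∈ Db (Rsq a b c d))
    (ht : t ∈ Db (Rsq a b c d)) :
    DC (cf (Rsq a b c d) eta0 (Rsq a b c d)) s t := by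
  have hF : ∀ v : ℤ × ℤ, (v.1 < a + 1 ∨ b - 1 + 1 < v.1 ∨ v.2 < c ∨ d - 1 < v.2) →
      v ∈ {v : ℤ × ℤ | (v.1 - 1, v.2) ∉ Rsq a b c d} := by
    intro v hv
    simp only [Set.mem_ofPred_eq, mem_Rsq]
    omega
  have hs' := Db_rect hs
  have ht' := Db_rect ht
  have h1 := odd_Db hs
  have h2 := odd_Db ht
  have h := FKA.outside_conn (z := (s.1 + 1, s.2)) (w := (t.1 + 1, t.2)) hF
    (by rw [Int.odd_iff] at h1; rw [Int.even_iff]; simp only; omega)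
    (by rw [Int.odd_iff] at h2; rw [Int.even_iff]; simp only; omega)
    (by simp only; omega) (by simp only; omega)
  have key : ∀ z, ReflTransGen (PStep {v : ℤ × ℤ | (v.1 - 1, v.2) ∉ Rsq a b c d})
      (s.1 + 1, s.2) z → DC (cf (Rsq a b c d) eta0 (Rsq a b c d)) s (z.1 - 1, z.2) := by
    intro z hz
    induction hz with
    | refl =>
      simp only [add_sub_cancel_right]
      exact ReflTransGen.refl
    | @tail y z _ h1 ih =>
      refine ih.tail ⟨?_, ?_, ?_⟩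
      · have := h1.1
        simp only
        omega
      · exact h1.2.1
      · have h2 : (min y.1 z.1 - 1, min y.2 z.2) ∉ Rsq a b c d := h1.2.2
        have h3 : (min (y.1 - 1) (z.1 - 1), min y.2 z.2) = (min y.1 z.1 - 1, min y.2 z.2) := by
          ext
          · simp only; omega
          · rfl
        simp only [h3]
        show ¬ cf _ _ _ _ = true
        rw [FKA.cf_out h2]
        simp [eta0]
  have := key _ h
  simpa using this

/-- **Theorem W for rectangles**, primal: the worst configuration outside is `eta1`. -/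
theorem worst_rect {a b c d : ℤ} (hQ : 0 < Q) (hQ1 : Q ≤ 1) (hη : Good η)
    (hD : Rsq a b c d ⊆ D) {A : Set (ℤ × ℤ)} (hA : A ⊆ Pb (Rsq a b c d)) (B : Set (ℤ × ℤ)) :
    Pr Q (Rsq a b c d) eta1 (CI (Rsq a b c d) A B) ≤ Pr Q D η (CI (Rsq a b c d) A B) :=
  worst_P_dom hQ hQ1 hη good_eta1 hD (fun _ hs _ ht _ _ => outside_P hs ht) hA B

/-- **Theorem W for rectangles**, dual: the worst configuration outside is `eta0`. -/
theorem worst_rect_dual {a b c d : ℤ} (hQ : 0 < Q) (hQ1 : Q ≤ 1) (hη : Good η)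
    (hD : Rsq a b c d ⊆ D) {A : Set (ℤ × ℤ)} (hA : A ⊆ Db (Rsq a b c d)) (B : Set (ℤ × ℤ)) :
    Pr Q (Rsq a b c d) eta0 (CD (Rsq a b c d) A B) ≤ Pr Q D η (CD (Rsq a b c d) A B) :=
  worst_D_dom hQ hQ1 hη good_eta0 hD (fun _ hs _ ht _ _ => outside_D hs ht) hA B

end Vale.Agent.P167.H262
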