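import Vale.Agent.P167.H262.Gc

/-!
Corollaries of the general principle.
-/

namespace Vale.Agent.P167.H262

open Finset Vale.Agent.P167.H623 Vale.Agent.P167.H92

set_option linter.unusedSectionVars false

variable {V E : Type*} [Fintype V] [DecidableEq V] [Fintype E] [DecidableEq E] {a b : E → V}

theorem weight_eq_wq {p : E → ℝ} (hp : ∀ e, p e < 1) (q : ℝ) (W : Finset V) (ω : Finset E) :
    weight a b p q W ω = kap p q W * wq a b (fun e => p e / (1 - p e)) q W ω := by
  classical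
  rw [weight_eq a b hp, wq]

open Classical in
/-- The probabilities of `H623` are expectations. -/
theorem prob_eq {p : E → ℝ} (hp : ∀ e, p e < 1) {q : ℝ} (hq : 0 < q) (W : Finset V)
    (A : Finset E → Prop) :
    prob a b p q W A = Ew a b (fun e => p e / (1 - p e)) q W fun ω => if A ω then 1 else 0 := by
  rw [prob, Ew, sum_filter]
  have h1 : ∀ ω, (if A ω then weight a b p q W ω else 0) =
      kap p q W * (wq a b (fun e => p e / (1 - p e)) q W ω * if A ω then 1 else 0) := by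
    intro ω
    rw [weight_eq_wq hp]
    split_ifs <;> ring
  have h2 : ∑ ω, (if A ω then weight a b p q W ω else 0) =
      kap p q W * ∑ ω, wq a b (fun e => p e / (1 - p e)) q W ω * if A ω then 1 else 0 := by
    rw [mul_sum]
    exact sum_congr rfl fun ω _ => h1 ω
  have h3 : ∑ ω, weight a b p q W ω =
      kap p q W * ∑ ω, wq a b (fun e => p e / (1 - p e)) q W ω := by
    rw [mul_sum]
    exact sum_congr rfl fun ω _ => weight_eq_wq hp q W ω
  rw [h2, h3, mul_div_mul_left _ _ (kap_pos hp hq W).ne']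

theorem Ew_mono {w : E → ℝ} (hw : ∀ e, 0 ≤ w e) {q : ℝ} (hq : 0 < q) (W : Finset V)
    {F G : Finset E → ℝ} (h : ∀ ω, F ω ≤ G ω) : Ew a b w q W F ≤ Ew a b w q W G := by
  refine div_le_div_of_nonneg_right (sum_le_sum fun ω _ => ?_) (sum_wq_pos hw hq W).le
  exact mul_le_mul_of_nonneg_left (h ω) (wq_nonneg hw hq.le W ω)

theorem Ew_nonneg {w : E → ℝ} (hw : ∀ e, 0 ≤ w e) {q : ℝ} (hq : 0 < q) (W : Finset V)
    {F : Finset E → ℝ} (h : ∀ ω, 0 ≤ F ω) : 0 ≤ Ew a b w q W F :=
  div_nonneg (sum_nonneg fun ω _ => mul_nonneg (wq_nonneg hw hq.le W ω) (h ω))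
    (sum_wq_pos hw hq W).le

theorem Ew_one {w : E → ℝ} (hw : ∀ e, 0 ≤ w e) {q : ℝ} (hq : 0 < q) (W : Finset V) :
    Ew a b w q W (fun _ => 1) = 1 := by
  rw [Ew]
  simp only [mul_one]
  exact div_self (sum_wq_pos hw hq W).ne'

theorem Ew_add (w : E → ℝ) (q : ℝ) (W : Finset V) (F G : Finset E → ℝ) :
    Ew a b w q W (fun ω => F ω + G ω) = Ew a b w q W F + Ew a b w q W G := by
  simp only [Ew, mul_add, sum_add_distrib, add_div]

theorem Ew_smul (w : E → ℝ) (q : ℝ) (W : Finset V) (k : ℝ) (F : Finset E → ℝ) :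
    Ew a b w q W (fun ω => k * F ω) = k * Ew a b w q W F := by
  rw [Ew, Ew, ← mul_div_assoc, mul_sum]
  congr 1
  exact sum_congr rfl fun ω _ => by ring

open Classical in
/-- The trace form: a function of the trace of the clusters of `T`. -/
theorem gp_trace {w : E → ℝ} (hw : ∀ e, 0 ≤ w e) {q : ℝ} (hq : 0 < q) (hq1 : q ≤ 1)
    {T B T' : Finset V} (hT' : T' ⊆ T) {ϑ : Setoid V → ℝ} (hϑ : Trace T B ϑ) :
    ∃ π : Finset V → ℝ, (∀ R, 0 ≤ π R) ∧ ∀ W : Finset V,
      Ew a b w q (W ∪ B ∪ T') (fun ω => if Miss a b T W ω then ϑ (conf a b ω) else 0) =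
        ∑ R with Disjoint R W, π R :=
  gp hw hq hq1 hT' (fun _ => hϑ.nonneg _) fun _ _ _ h => hϑ.congr _ _ h

open Classical in
/-- **T1 with bystanders**, the target `T` unwired (`T' = ∅`), wired (`T' = T`) or partly wired:
the probability that no open path joins `T` to `W` decreases with `W`. -/
theorem t1 {w : E → ℝ} (hw : ∀ e, 0 ≤ w e) {q : ℝ} (hq : 0 < q) (hq1 : q ≤ 1)
    {T B T' : Finset V} (hT' : T' ⊆ T) {W W' : Finset V} (h : W ⊆ W') :
    Ew a b w q (W' ∪ B ∪ T') (fun ω => if Miss a b T W' ω then 1 else 0) ≤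
      Ew a b w q (W ∪ B ∪ T') (fun ω => if Miss a b T W ω then 1 else 0) :=
  gc hw hq hq1 hT' (Ψ := fun _ => 1) (fun _ => zero_le_one) (fun _ _ _ _ => rfl) h

end Vale.Agent.P167.H262
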