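import Vale.Agent.P167.H262.Loc

/-!
The gluing comparison (GC) and the general principle (GP) for the random-cluster measures with
`0 < q ≤ 1`.

`Ew a b w q W F` is the expectation of `F` for the random-cluster measure with edge weights `w`,
cluster weight `q` and wired set `W` (free for `W = ∅`).

Let `T' ⊆ T` and `B` be sets of vertices and let `Ψ ≥ 0` be a function which sees only the open
edges inside of `T` and the trace of the clusters of `T` on `T ∪ B`. Then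
`W ↦ Ew a b w q (W ∪ B ∪ T') (Ψ 1{no open path joins T and W})` is totally monotone decreasing.
-/

namespace Vale.Agent.P167.H262

open Finset Vale.Agent.P167.H623 Vale.Agent.P167.H92

set_option linter.unusedSectionVars false

variable {V E : Type*} [Fintype V] [DecidableEq V] [Fintype E] [DecidableEq E]

open Classical in
/-- The weight of the configuration `ω` with wired set `W`. -/
noncomputable def wq (a b : E → V) (w : E → ℝ) (q : ℝ) (W : Finset V) (ω : Finset E) : ℝ :=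
  (∏ e ∈ ω, w e) * q ^ ((classes (conf a b ω)).filter fun c => Disjoint c W).card

/-- The expectation for the random-cluster measure with wired set `W`. -/
noncomputable def Ew (a b : E → V) (w : E → ℝ) (q : ℝ) (W : Finset V) (F : Finset E → ℝ) : ℝ :=
  (∑ ω, wq a b w q W ω * F ω) / ∑ ω, wq a b w q W ω

/-- `Ψ` sees only the open edges inside of `T` and which points of `T` are joined to which points
of `T ∪ B`. -/
def Local (a b : E → V) (T B : Finset V) (Ψ : Finset E → ℝ) : Prop :=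
  ∀ ω ω' : Finset E, ω ∩ inE a b T = ω' ∩ inE a b T →
    (∀ x ∈ T, ∀ y ∈ T ∪ B, conf a b ω x y ↔ conf a b ω' x y) → Ψ ω = Ψ ω'

variable {a b : E → V}

theorem wq_eq (w : E → ℝ) (q : ℝ) (W : Finset V) (ω : Finset E) :
    wq a b w q W ω = (∏ e ∈ ω, w e) * wt (cw q 1 W ∅) (conf a b ω) := by
  classical
  rw [wq, wt_eq_pow]

theorem sum_wq (w : E → ℝ) (q : ℝ) (W : Finset V) :
    ∑ ω, wq a b w q W ω = XX a b w (1 - q) Wᶜ := by
  rw [XX, NN, powerset_univ]
  refine sum_congr rfl fun ω _ => ?_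
  rw [wq_eq, compl_compl, sub_sub_cancel]

theorem wq_nonneg {w : E → ℝ} (hw : ∀ e, 0 ≤ w e) {q : ℝ} (hq : 0 ≤ q) (W : Finset V)
    (ω : Finset E) : 0 ≤ wq a b w q W ω :=
  mul_nonneg (prod_nonneg fun e _ => hw e) (pow_nonneg hq _)

theorem sum_wq_pos {w : E → ℝ} (hw : ∀ e, 0 ≤ w e) {q : ℝ} (hq : 0 < q) (W : Finset V) :
    0 < ∑ ω, wq a b w q W ω := by
  rw [sum_wq]
  exact XX_pos a b w _ hw (by linarith) _

/-! ### The number of the clusters of `T` -/

open Classical in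
/-- The number of the classes which meet `T` and miss `S`. -/
noncomputable def kT (T S : Finset V) (P : Setoid V) : ℕ :=
  ((T.filter fun x => ∀ y ∈ S, ¬ P x y).image fun x => T.filter fun y => P x y).card

theorem kT_congr {T S B : Finset V} (hS : S ⊆ T ∪ B) {P P' : Setoid V}
    (h : ∀ x ∈ T, ∀ y ∈ T ∪ B, P x y ↔ P' x y) : kT T S P = kT T S P' := by
  classical
  rw [kT, kT]
  congr 1
  have h1 : (T.filter fun x => ∀ y ∈ S, ¬ P x y) = T.filter fun x => ∀ y ∈ S, ¬ P' x y := by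
    refine filter_congr fun x hx => ?_
    exact forall₂_congr fun y hy => not_congr (h x hx y (hS hy))
  rw [h1]
  refine image_congr fun x hx => ?_
  have hxT : x ∈ T := (mem_filter.1 (mem_coe.1 hx)).1
  exact filter_congr fun y hy => h x hxT y (mem_union_left _ hy)

open Classical in
theorem kT_eq (T S : Finset V) (P : Setoid V) :
    kT T S P = ((classes P).filter fun c => ¬ Disjoint c T ∧ Disjoint c S).card := by
  rw [kT]
  symm
  refine card_bij (fun c _ => c ∩ T) ?_ ?_ ?_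
  · intro c hc
    rw [mem_filter, mem_classes] at hc
    obtain ⟨⟨x, rfl⟩, h1, h2⟩ := hc
    obtain ⟨y, hy, hyT⟩ := not_disjoint_iff.1 h1
    rw [mem_cls] at hy
    rw [mem_image]
    refine ⟨y, mem_filter.2 ⟨hyT, fun z hz hyz => ?_⟩, ?_⟩
    · exact disjoint_left.1 h2 (mem_cls.2 (P.trans hy hyz)) hz
    · ext z
      rw [mem_filter, mem_inter, mem_cls]
      constructor
      · rintro ⟨h, h'⟩
        exact ⟨P.trans hy h', h⟩
      · rintro ⟨h, h'⟩
        exact ⟨h', P.trans (P.symm hy) h⟩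
  · intro c hc c' hc' h
    rw [mem_filter, mem_classes] at hc hc'
    obtain ⟨⟨x, rfl⟩, h1, h2⟩ := hc
    obtain ⟨⟨x', rfl⟩, -, -⟩ := hc'
    obtain ⟨y, hy, hyT⟩ := not_disjoint_iff.1 h1
    have h3 : y ∈ cls P x' ∩ T := h ▸ mem_inter.2 ⟨hy, hyT⟩
    have h4 := mem_cls.1 (mem_inter.1 h3).1
    exact cls_eq_iff.2 (P.trans (mem_cls.1 hy) (P.symm h4))
  · intro d hd
    rw [mem_image] at hd
    obtain ⟨x, hx, rfl⟩ := hd
    rw [mem_filter] at hx
    refine ⟨cls P x, mem_filter.2 ⟨cls_mem P x, ?_, ?_⟩, ?_⟩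
    · exact not_disjoint_iff.2 ⟨x, self_mem_cls P x, hx.1⟩
    · exact disjoint_left.2 fun y hy hyS => hx.2 y hyS (mem_cls.1 hy)
    · ext z
      rw [mem_filter, mem_inter, mem_cls]
      exact and_comm

open Classical in
theorem pow_split {q : ℝ} {T T' B W : Finset V} (hT' : T' ⊆ T) {ω : Finset E}
    (h : Miss a b T W ω) :
    q ^ ((classes (conf a b ω)).filter fun c => Disjoint c (W ∪ B ∪ T')).card =
      q ^ ((classes (conf a b ω)).filter fun c => Disjoint c (W ∪ T ∪ B)).card *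
        q ^ kT T (B ∪ T') (conf a b ω) := by
  rw [kT_eq, ← pow_add, ← card_union_of_disjoint]
  · congr 2
    ext c
    rw [mem_union, mem_filter, mem_filter, mem_filter]
    simp only [disjoint_union_right]
    constructor
    · rintro ⟨h1, ⟨h2, h3⟩, h4⟩
      by_cases h5 : Disjoint c T
      · exact Or.inl ⟨h1, ⟨h2, h5⟩, h3⟩
      · exact Or.inr ⟨h1, h5, h3, h4⟩
    · rintro (⟨h1, ⟨h2, h5⟩, h3⟩ | ⟨h1, h5, h3, h4⟩)
      · exact ⟨h1, ⟨h2, h3⟩, h5.mono_right hT'⟩
      · refine ⟨h1, ⟨?_, h3⟩, h4⟩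
        obtain ⟨x, rfl⟩ := mem_classes.1 h1
        obtain ⟨y, hy, hyT⟩ := not_disjoint_iff.1 h5
        refine disjoint_left.2 fun z hz hzW => h y hyT z hzW ((conn_iff a b ω y z).2 ?_)
        exact Setoid.trans' _ (Setoid.symm' _ (mem_cls.1 hy)) (mem_cls.1 hz)
  · rw [disjoint_left]
    intro c hc hc'
    rw [mem_filter, disjoint_union_right, disjoint_union_right] at hc
    rw [mem_filter] at hc'
    exact hc'.2.1 hc.2.1.2

open Classical in
/-- The function of the expansion. -/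
noncomputable def FF (a b : E → V) (q : ℝ) (T B T' : Finset V) (Ψ : Finset E → ℝ) (ζ : Finset E)
    (P : Setoid V) : ℝ :=
  if h : ∃ ω : Finset E, ω ∩ inE a b T = ζ ∧ ∀ x ∈ T, ∀ y ∈ T ∪ B, conf a b ω x y ↔ P x y then
    Ψ h.choose * q ^ kT T (B ∪ T') P else 0

theorem FF_eq {q : ℝ} {T B T' : Finset V} {Ψ : Finset E → ℝ} (hΨ : Local a b T B Ψ)
    (ω : Finset E) : FF a b q T B T' Ψ (ω ∩ inE a b T) (conf a b ω) =
      Ψ ω * q ^ kT T (B ∪ T') (conf a b ω) := by
  have h : ∃ ω' : Finset E, ω' ∩ inE a b T = ω ∩ inE a b T ∧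
      ∀ x ∈ T, ∀ y ∈ T ∪ B, conf a b ω' x y ↔ conf a b ω x y :=
    ⟨ω, rfl, fun _ _ _ _ => Iff.rfl⟩
  rw [FF, dif_pos h, hΨ _ _ h.choose_spec.1 h.choose_spec.2]

theorem FF_trace {q : ℝ} (hq : 0 ≤ q) {T B T' : Finset V} (hT' : T' ⊆ T) {Ψ : Finset E → ℝ}
    (h0 : ∀ ω, 0 ≤ Ψ ω) (hΨ : Local a b T B Ψ) (ζ : Finset E) :
    Trace T B (FF a b q T B T' Ψ ζ) where
  nonneg P := by
    rw [FF]
    split_ifs
    · exact mul_nonneg (h0 _) (pow_nonneg hq _)
    · exact le_rfl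
  congr P P' h := by
    have hS : B ∪ T' ⊆ T ∪ B := union_subset subset_union_right (hT'.trans subset_union_left)
    rw [FF, FF, kT_congr hS h]
    by_cases hP : ∃ ω : Finset E, ω ∩ inE a b T = ζ ∧
        ∀ x ∈ T, ∀ y ∈ T ∪ B, conf a b ω x y ↔ P x y
    · have hP' : ∃ ω : Finset E, ω ∩ inE a b T = ζ ∧
          ∀ x ∈ T, ∀ y ∈ T ∪ B, conf a b ω x y ↔ P' x y := by
        obtain ⟨ω, h1, h2⟩ := hP
        exact ⟨ω, h1, fun x hx y hy => (h2 x hx y hy).trans (h x hx y hy)⟩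
      rw [dif_pos hP, dif_pos hP', hΨ hP.choose hP'.choose
        (hP.choose_spec.1.trans hP'.choose_spec.1.symm) fun x hx y hy => ?_]
      rw [hP.choose_spec.2 x hx y hy, hP'.choose_spec.2 x hx y hy, h x hx y hy]
    · have hP' : ¬ ∃ ω : Finset E, ω ∩ inE a b T = ζ ∧
          ∀ x ∈ T, ∀ y ∈ T ∪ B, conf a b ω x y ↔ P' x y := by
        rintro ⟨ω, h1, h2⟩
        exact hP ⟨ω, h1, fun x hx y hy => (h2 x hx y hy).trans (h x hx y hy).symm⟩
      rw [dif_neg hP, dif_neg hP']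

open Classical in
theorem sum_wq_miss {w : E → ℝ} {q : ℝ} {T B T' : Finset V} (hT' : T' ⊆ T) {Ψ : Finset E → ℝ}
    (hΨ : Local a b T B Ψ) (W : Finset V) :
    ∑ ω, wq a b w q (W ∪ B ∪ T') ω * (if Miss a b T W ω then Ψ ω else 0) =
      N5 a b w (1 - (1 - q)) (FF a b q T B T' Ψ) T B Wᶜ := by
  rw [N5, powerset_univ]
  refine sum_congr rfl fun ω _ => ?_
  rw [FF_eq hΨ, compl_compl, sub_sub_cancel, wt_cw3_pow, wq]
  by_cases h : Miss a b T W ω
  · rw [if_pos h, if_pos h, pow_split hT' h]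
    ring
  · rw [if_neg h, if_neg h]
    ring

open Classical in
/-- **The general principle.** -/
theorem gp {w : E → ℝ} (hw : ∀ e, 0 ≤ w e) {q : ℝ} (hq : 0 < q) (hq1 : q ≤ 1)
    {T B T' : Finset V} (hT' : T' ⊆ T) {Ψ : Finset E → ℝ} (h0 : ∀ ω, 0 ≤ Ψ ω)
    (hΨ : Local a b T B Ψ) : ∃ π : Finset V → ℝ, (∀ R, 0 ≤ π R) ∧ ∀ W : Finset V,
      Ew a b w q (W ∪ B ∪ T') (fun ω => if Miss a b T W ω then Ψ ω else 0) =
        ∑ R with Disjoint R W, π R := by
  obtain ⟨π, k0, k1⟩ := N5_ratio (a := a) (b := b) hw (s := 1 - q) (by linarith) (by linarith)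
    (fun ζ => FF_trace hq.le hT' h0 hΨ ζ) hT'
  refine ⟨π, k0, fun W => ?_⟩
  rw [Ew, sum_wq_miss hT' hΨ, sum_wq]
  have h1 : (W ∪ B ∪ T')ᶜ = Wᶜ \ (T' ∪ B) := by
    ext x
    simp only [mem_compl, mem_union, mem_sdiff]
    tauto
  rw [h1]
  have := k1 Wᶜ (subset_univ _)
  beta_reduce at this
  rw [this]
  refine sum_congr ?_ fun _ _ => rfl
  ext R
  rw [mem_powerset, mem_filter, subset_compl_iff_disjoint_right]
  simp

open Classical in
/-- **The gluing comparison.** -/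
theorem gc {w : E → ℝ} (hw : ∀ e, 0 ≤ w e) {q : ℝ} (hq : 0 < q) (hq1 : q ≤ 1)
    {T B T' : Finset V} (hT' : T' ⊆ T) {Ψ : Finset E → ℝ} (h0 : ∀ ω, 0 ≤ Ψ ω)
    (hΨ : Local a b T B Ψ) {W W' : Finset V} (h : W ⊆ W') :
    Ew a b w q (W' ∪ B ∪ T') (fun ω => if Miss a b T W' ω then Ψ ω else 0) ≤
      Ew a b w q (W ∪ B ∪ T') (fun ω => if Miss a b T W ω then Ψ ω else 0) := by
  obtain ⟨π, k0, k1⟩ := gp (a := a) (b := b) hw hq hq1 hT' h0 hΨ
  rw [k1, k1]
  refine sum_le_sum_of_subset_of_nonneg ?_ fun R _ _ => k0 R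
  intro R hR
  rw [mem_filter] at hR ⊢
  exact ⟨hR.1, hR.2.mono_right h⟩

open Classical in
/-- The gluing comparison with `T` unwired and no further wired set: `F` sees only the edges inside
of `T`. -/
theorem gc_edges {w : E → ℝ} (hw : ∀ e, 0 ≤ w e) {q : ℝ} (hq : 0 < q) (hq1 : q ≤ 1)
    {T : Finset V} {F : Finset E → ℝ} (h0 : ∀ ω, 0 ≤ F ω) {W W' : Finset V} (h : W ⊆ W') :
    Ew a b w q W' (fun ω => if Miss a b T W' ω then F (ω ∩ inE a b T) else 0) ≤
      Ew a b w q W (fun ω => if Miss a b T W ω then F (ω ∩ inE a b T) else 0) := by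
  have h1 : Local a b T ∅ fun ω => F (ω ∩ inE a b T) := fun ω ω' h _ => congrArg F h
  have := gc (a := a) (b := b) hw hq hq1 (empty_subset T) (fun ω => h0 _) h1 h
  simpa only [union_empty] using this

open Classical in
/-- Against the free measure: `E^{W}[F ; T is not joined to W] ≤ E[F]`. -/
theorem gc_free {w : E → ℝ} (hw : ∀ e, 0 ≤ w e) {q : ℝ} (hq : 0 < q) (hq1 : q ≤ 1)
    {T : Finset V} {F : Finset E → ℝ} (h0 : ∀ ω, 0 ≤ F ω) (W : Finset V) :
    Ew a b w q W (fun ω => if Miss a b T W ω then F (ω ∩ inE a b T) else 0) ≤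
      Ew a b w q ∅ (fun ω => F (ω ∩ inE a b T)) := by
  have := gc_edges (a := a) (b := b) hw hq hq1 (T := T) h0 (empty_subset W)
  have h2 : ∀ ω : Finset E, Miss a b T ∅ ω := fun ω x _ y hy => absurd hy (notMem_empty y)
  simpa only [h2, if_true] using this

end Vale.Agent.P167.H262
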