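import Vale.Agent.P167.H92.Cap

/-!
Random-cluster measures with `0 < q ≤ 1`: the general principle. The sums over the configurations
in which no open path joins `T` to the complement of `D`, weighted with an arbitrary nonnegative
function `ϑ` of the trace of the clusters of `T` on `T ∪ B`, have a positive expansion in the
partition functions with more wired points.
-/

namespace Vale.Agent.P167.H262

open Finset Vale.Agent.P167.H623 Vale.Agent.P167.H92

set_option linter.unusedSectionVars false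

variable {V E : Type*} [Fintype V] [DecidableEq V] [Fintype E] [DecidableEq E]

/-- `ϑ` is a nonnegative function of the trace on `T ∪ B` of the classes which meet `T`. -/
structure Trace (T B : Finset V) (ϑ : Setoid V → ℝ) : Prop where
  nonneg : ∀ P, 0 ≤ ϑ P
  congr : ∀ P P' : Setoid V, (∀ x ∈ T, ∀ y ∈ T ∪ B, P x y ↔ P' x y) → ϑ P = ϑ P'

theorem Trace.merge {T B M : Finset V} {ϑ : Setoid V → ℝ} (h : Trace T B ϑ) (hM : T ∪ B ⊆ M)
    {P : Setoid V} {x y : V} (hy : Disjoint (cls P y) M) : ϑ (P ⊔ join x y) = ϑ P := by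
  refine h.congr _ _ fun u hu v hv => ?_
  rw [sup_join_iff]
  constructor
  · rintro (k | ⟨-, k'⟩ | ⟨k, -⟩)
    · exact k
    · exact absurd (hM hv) (disjoint_left.1 hy (mem_cls.2 k'))
    · exact absurd (hM (mem_union_left _ hu))
        (disjoint_left.1 hy (mem_cls.2 (Setoid.symm' _ k)))
  · exact Or.inl

/-- **Positivity** (deletion and contraction), with a function of the trace. -/
theorem pos_tr (a b : E → V) (v : E → ℝ) {M T B : Finset V} {s : ℝ} {θ : Finset V → ℝ}
    {ϑ : Setoid V → ℝ} (hϑ : Trace T B ϑ) (hM : T ∪ B ⊆ M)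
    (hθ : Marked M s θ) (hs : 0 ≤ s) (hv : ∀ e, s ≤ v e) (L : Finset E) : ∀ P : Setoid V,
    (∀ x, ∃ y ∈ M, (P ⊔ conf a b L) x y) →
    0 ≤ ∑ g ∈ L.powerset, (∏ e ∈ g, v e) * (ϑ (P ⊔ conf a b g) * wt θ (P ⊔ conf a b g)) := by
  induction L using Finset.induction_on with
  | empty =>
    intro P hP
    rw [powerset_empty, sum_singleton, prod_empty, one_mul]
    refine mul_nonneg (hϑ.nonneg _) (prod_nonneg ?_)
    intro c hc
    obtain ⟨x, rfl⟩ := mem_classes.1 hc
    obtain ⟨y, hy, hxy⟩ := hP x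
    exact hθ.nonneg _ fun h => disjoint_left.1 h (mem_cls.2 hxy) hy
  | insert e L he ih =>
    intro P hP
    rw [sum_powerset_insert he]
    have hP' : ∀ x, ∃ y ∈ M, (P ⊔ join (a e) (b e) ⊔ conf a b L) x y := by
      intro x
      obtain ⟨y, hy, hxy⟩ := hP x
      refine ⟨y, hy, ?_⟩
      rw [conf_insert, ← sup_assoc] at hxy
      exact hxy
    have hI := ih (P ⊔ join (a e) (b e)) hP'
    have hsum : ∑ g ∈ L.powerset, (∏ e' ∈ insert e g, v e') *
        (ϑ (P ⊔ conf a b (insert e g)) * wt θ (P ⊔ conf a b (insert e g))) =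
        v e * ∑ g ∈ L.powerset, (∏ e' ∈ g, v e') *
          (ϑ (P ⊔ join (a e) (b e) ⊔ conf a b g) *
            wt θ (P ⊔ join (a e) (b e) ⊔ conf a b g)) := by
      rw [mul_sum]
      refine sum_congr rfl fun g hg => ?_
      rw [prod_insert (fun h => he (mem_powerset.1 hg h)), conf_insert, ← sup_assoc, mul_assoc]
    rw [hsum]
    by_cases hA : ∀ x, ∃ y ∈ M, (P ⊔ conf a b L) x y
    · exact add_nonneg (ih P hA) (mul_nonneg (hs.trans (hv e)) hI)
    · push Not at hA
      obtain ⟨x0, hx0⟩ := hA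
      have key : ∀ x y : V, join x y = join (a e) (b e) → (P ⊔ conf a b L) x0 y →
          ¬ (P ⊔ conf a b L) x y →
          0 ≤ ∑ g ∈ L.powerset, (∏ e' ∈ g, v e') *
              (ϑ (P ⊔ conf a b g) * wt θ (P ⊔ conf a b g)) +
            v e * ∑ g ∈ L.powerset, (∏ e' ∈ g, v e') *
              (ϑ (P ⊔ join (a e) (b e) ⊔ conf a b g) *
                wt θ (P ⊔ join (a e) (b e) ⊔ conf a b g)) := by
        intro x y hj h0 hxy
        have : ∑ g ∈ L.powerset, (∏ e' ∈ g, v e') *
              (ϑ (P ⊔ conf a b g) * wt θ (P ⊔ conf a b g)) =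
            -s * ∑ g ∈ L.powerset, (∏ e' ∈ g, v e') *
              (ϑ (P ⊔ join (a e) (b e) ⊔ conf a b g) *
                wt θ (P ⊔ join (a e) (b e) ⊔ conf a b g)) := by
          rw [mul_sum]
          refine sum_congr rfl fun g hg => ?_
          have hle : P ⊔ conf a b g ≤ P ⊔ conf a b L :=
            sup_le_sup_left (conf_mono a b (mem_powerset.1 hg)) P
          have hd : Disjoint (cls (P ⊔ conf a b g) y) M := by
            rw [disjoint_left]
            intro z hz hzS
            exact hx0 z hzS (Setoid.trans' _ h0 (hle (mem_cls.1 hz)))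
          have h2 : P ⊔ conf a b g ⊔ join x y = P ⊔ join (a e) (b e) ⊔ conf a b g := by
            rw [hj, sup_right_comm]
          rw [wt_merge' hθ (P ⊔ conf a b g) x y (fun h => hxy (hle h)) hd,
            ← hϑ.merge hM (x := x) hd, h2]
          ring
        rw [this, ← add_mul]
        exact mul_nonneg (by linarith [hv e]) hI
      obtain ⟨y, hy, hxy⟩ := hP' x0
      rw [sup_right_comm] at hxy
      rcases (sup_join_iff (P ⊔ conf a b L) (a e) (b e) x0 y).1 hxy with h | ⟨h, h'⟩ | ⟨h, h'⟩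
      · exact absurd h (hx0 y hy)
      · refine key (b e) (a e) (join_comm _ _) h fun hk => ?_
        exact hx0 y hy (Setoid.trans' _ h (Setoid.trans' _ (Setoid.symm' _ hk) h'))
      · refine key (a e) (b e) rfl h fun hk => ?_
        exact hx0 y hy (Setoid.trans' _ h (Setoid.trans' _ (Setoid.symm' _ hk) h'))

variable {a b : E → V}

theorem Trace.eq_res {T B X : Finset V} {ϑ : Setoid V → ℝ} (h : Trace T B ϑ) (hT : T ⊆ X)
    {g : Finset E} (hg : Closed a b X g) : ϑ (conf a b g) = ϑ (conf a b (res a b X g)) :=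
  h.congr _ _ fun _ hx _ _ => conf_res hg (hT hx)

/-- The partition function. -/
noncomputable def N4 (a b : E → V) (w : E → ℝ) (q : ℝ) (ϑ : Setoid V → ℝ)
    (T B D : Finset V) : ℝ :=
  ∑ ω ∈ (univ : Finset E).powerset, (∏ e ∈ ω, w e) *
    (ϑ (conf a b ω) * wt (cw3 q 1 Dᶜ T B) (conf a b ω))

/-- The signed partition function of `A`. -/
noncomputable def ZT4 (a b : E → V) (w : E → ℝ) (s : ℝ) (ϑ : Setoid V → ℝ)
    (T B A : Finset V) : ℝ :=
  ∑ ω ∈ (inE a b A).powerset, (∏ e ∈ ω, w e) *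
    (ϑ (conf a b ω) * wt (theta3 Aᶜ T B 1 s) (conf a b ω))

theorem N4_eq {T B : Finset V} {ϑ : Setoid V → ℝ} (hϑ : Trace T B ϑ) (w : E → ℝ) (s : ℝ)
    (D : Finset V) : N4 a b w (1 - s) ϑ T B D =
      ∑ A ∈ D.powerset with T ⊆ A, zz a b w Aᶜ * ZT4 a b w s ϑ T B A := by
  classical
  have h1 : N4 a b w (1 - s) ϑ T B D = ∑ ω ∈ (univ : Finset E).powerset,
      ∑ A ∈ D.powerset with T ⊆ A, if ω ⊆ inE a b A ∪ inE a b Aᶜ then
        (∏ e ∈ ω, w e) * (ϑ (conf a b ω) * wt (theta3 Aᶜ T B 1 s) (conf a b ω)) else 0 := by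
    rw [N4]
    refine sum_congr rfl fun ω _ => ?_
    rw [wt_cw3, mul_sum, mul_sum, ← sum_filter, filter_filter]
    refine sum_congr ?_ fun _ _ => rfl
    ext A
    rw [mem_filter, mem_filter, closed_iff]
  rw [h1, sum_comm]
  refine sum_congr rfl fun A hA => ?_
  have hTA : T ⊆ A := (mem_filter.1 hA).2
  rw [← sum_filter]
  have h2 : (univ : Finset E).powerset.filter (fun ω => ω ⊆ inE a b A ∪ inE a b Aᶜ) =
      (inE a b A ∪ inE a b Aᶜ).powerset := by
    ext ω
    rw [mem_filter, mem_powerset, mem_powerset]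
    exact and_iff_right (subset_univ _)
  have hd : Disjoint A Aᶜ := disjoint_compl_right
  rw [h2, sum_powerset_union' (disjoint_inE hd), zz, prod_one_add, ZT4, mul_comm, sum_mul_sum]
  refine sum_congr rfl fun ω₁ h₁ => sum_congr rfl fun ω₂ h₂ => ?_
  rw [mem_powerset] at h₁ h₂
  rw [prod_union ((disjoint_inE hd).mono h₁ h₂), wt_res3 (closed_union hd h₁ h₂),
    hϑ.eq_res hTA (closed_union hd h₁ h₂), res_union_left hd h₁ h₂]
  ring

variable (a b) (w : E → ℝ) (s : ℝ) (ϑ : Setoid V → ℝ)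

/-- The term of `g`. -/
noncomputable def term4 (T B A : Finset V) (g : Finset E) : ℝ :=
  (∏ e ∈ g, w e) * ∑ g' ∈ g.powerset, (∏ e ∈ g', (1 + w e)) *
    (ϑ (conf a b g') * wt (theta3 Aᶜ T B 1 s) (conf a b g'))

/-- The full sum. -/
noncomputable def aa4 (T B A : Finset V) : ℝ :=
  ∑ g ∈ (inE a b A).powerset, term4 a b w s ϑ T B A g

theorem aa4_eq (T B A : Finset V) :
    aa4 a b w s ϑ T B A = zz a b w A * ZT4 a b w s ϑ T B A := by
  rw [aa4, zz, ZT4]
  exact sum_sum_powerset w (inE a b A) _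

open Classical in
/-- The sum over the `g` in which all points of `R` are connected to `T ∪ B`. -/
noncomputable def Phi4 (T B R : Finset V) : ℝ :=
  ∑ g ∈ (inE a b R).powerset with ∀ x ∈ R, ∃ t ∈ T ∪ B, conf a b g x t,
    term4 a b w s ϑ T B R g

variable {ϑ}

theorem Phi4_nonneg {T B : Finset V} (hϑ : Trace T B ϑ) (hw : ∀ e, 0 ≤ w e) (hs0 : 0 ≤ s)
    (hs1 : s ≤ 1) (R : Finset V) : 0 ≤ Phi4 a b w s ϑ T B R := by
  classical
  refine sum_nonneg fun g hg => ?_
  rw [mem_filter] at hg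
  refine mul_nonneg (prod_nonneg fun e _ => hw e) ?_
  have hM : T ∪ B ⊆ Rᶜ ∪ T ∪ B := by
    rw [union_assoc]
    exact subset_union_right
  have := pos_tr a b (fun e => 1 + w e) hϑ hM (marked_theta3 Rᶜ T B zero_le_one s) hs0
    (fun e => by linarith [hw e]) g ⊥
    (fun x => by
      rw [bot_sup_eq]
      by_cases hx : x ∈ R
      · obtain ⟨t, ht, hxt⟩ := hg.2 x hx
        exact ⟨t, hM ht, hxt⟩
      · exact ⟨x, mem_union_left _ (mem_union_left _ (mem_compl.2 hx)), Setoid.refl' _ x⟩)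
  simpa only [bot_sup_eq] using this

theorem term4_union {A R T B : Finset V} (hϑ : Trace T B ϑ) (hRA : R ⊆ A) (hTR : T ⊆ R)
    (hBR : B ∩ A ⊆ R) {g₁ g₂ : Finset E} (h₁ : g₁ ⊆ inE a b R) (h₂ : g₂ ⊆ inE a b (A \ R)) :
    term4 a b w s ϑ T B A (g₁ ∪ g₂) =
      term4 a b w s ϑ T B R g₁ * term a b w s 1 ∅ (A \ R) g₂ := by
  have hd : Disjoint R (A \ R) := disjoint_sdiff
  rw [term4, term4, term, prod_union ((disjoint_inE hd).mono h₁ h₂),
    sum_powerset_union' ((disjoint_inE hd).mono h₁ h₂), mul_mul_mul_comm, sum_mul_sum]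
  congr 1
  refine sum_congr rfl fun B₁ hB₁ => sum_congr rfl fun B₂ hB₂ => ?_
  rw [mem_powerset] at hB₁ hB₂
  have hc := closed_union (a := a) (b := b) hd (hB₁.trans h₁) (hB₂.trans h₂)
  rw [prod_union ((disjoint_inE hd).mono (hB₁.trans h₁) (hB₂.trans h₂)),
    wt_two3 hRA hTR hBR hc, hϑ.eq_res hTR hc,
    res_union_left hd (hB₁.trans h₁) (hB₂.trans h₂),
    res_union_right hd (hB₁.trans h₁) (hB₂.trans h₂)]
  ring

theorem aa4_rec {T B A : Finset V} (hϑ : Trace T B ϑ) (hT : T ⊆ A) : aa4 a b w s ϑ T B A =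
    ∑ R ∈ A.powerset with T ⊆ R ∧ B ∩ A ⊆ R,
      Phi4 a b w s ϑ T B R * aa a b w s 1 ∅ (A \ R) := by
  classical
  rw [aa4, ← sum_fiberwise_of_maps_to
    (g := fun g => A.filter fun x => ∃ t ∈ T ∪ B, conf a b g x t)
    (t := A.powerset.filter fun R => T ⊆ R ∧ B ∩ A ⊆ R)]
  · refine sum_congr rfl fun R hR => ?_
    rw [mem_filter, mem_powerset] at hR
    obtain ⟨hRA, hTR, hBR⟩ := hR
    have hd : Disjoint R (A \ R) := disjoint_sdiff
    have hsub : inE a b R ∪ inE a b (A \ R) ⊆ inE a b A := by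
      intro e he
      rw [mem_union, mem_inE, mem_inE, mem_sdiff, mem_sdiff] at he
      rw [mem_inE]
      rcases he with he | he
      · exact ⟨hRA he.1, hRA he.2⟩
      · exact ⟨he.1.1, he.2.1⟩
    have h1 : (inE a b A).powerset.filter
        (fun g => (A.filter fun x => ∃ t ∈ T ∪ B, conf a b g x t) = R) =
        (inE a b R ∪ inE a b (A \ R)).powerset.filter
          (fun g => (A.filter fun x => ∃ t ∈ T ∪ B, conf a b g x t) = R) := by
      ext g
      rw [mem_filter, mem_filter, mem_powerset, mem_powerset]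
      constructor
      · rintro ⟨hg, hgR⟩
        refine ⟨fun e he => ?_, hgR⟩
        have hA := mem_inE.1 (hg he)
        have hab := conf_edge a b he
        rw [mem_union, mem_inE, mem_inE, mem_sdiff, mem_sdiff]
        by_cases ha : a e ∈ R
        · left
          refine ⟨ha, ?_⟩
          rw [← hgR, mem_filter] at ha ⊢
          obtain ⟨t, ht, hat⟩ := ha.2
          exact ⟨hA.2, t, ht, Setoid.trans' _ (Setoid.symm' _ hab) hat⟩
        · right
          refine ⟨⟨hA.1, ha⟩, hA.2, fun hb => ha ?_⟩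
          rw [← hgR, mem_filter] at hb ⊢
          obtain ⟨t, ht, hbt⟩ := hb.2
          exact ⟨hA.1, t, ht, Setoid.trans' _ hab hbt⟩
      · rintro ⟨hg, hgR⟩
        exact ⟨hg.trans hsub, hgR⟩
    rw [h1, sum_filter, sum_powerset_union' (disjoint_inE hd), Phi4, sum_filter, aa,
      sum_mul_sum]
    refine sum_congr rfl fun g₁ h₁ => sum_congr rfl fun g₂ h₂ => ?_
    rw [mem_powerset] at h₁ h₂
    have hc := closed_union hd h₁ h₂
    have h3 : ((A.filter fun x => ∃ t ∈ T ∪ B, conf a b (g₁ ∪ g₂) x t) = R) ↔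
        ∀ x ∈ R, ∃ t ∈ T ∪ B, conf a b g₁ x t := by
      constructor
      · intro h x hx
        have hx' := hx
        rw [← h, mem_filter] at hx
        obtain ⟨t, ht, hxt⟩ := hx.2
        refine ⟨t, ht, ?_⟩
        rwa [conf_res hc hx', res_union_left hd h₁ h₂] at hxt
      · intro h
        ext x
        rw [mem_filter]
        constructor
        · rintro ⟨hxA, t, ht, hxt⟩
          refine (hc.mem_iff hxt).2 ?_
          rcases mem_union.1 ht with ht | ht
          · exact hTR ht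
          · refine hBR (mem_inter.2 ⟨ht, ?_⟩)
            have hcA : Closed a b A (g₁ ∪ g₂) := by
              intro e he
              have := mem_inE.1 (hsub ((union_subset_union h₁ h₂) he))
              exact ⟨fun _ => this.2, fun _ => this.1⟩
            exact (hcA.mem_iff hxt).1 hxA
        · intro hx
          obtain ⟨t, ht, hxt⟩ := h x hx
          exact ⟨hRA hx, t, ht, conf_mono a b subset_union_left hxt⟩
    by_cases h4 : ∀ x ∈ R, ∃ t ∈ T ∪ B, conf a b g₁ x t
    · rw [if_pos (h3.2 h4), if_pos h4, term4_union a b w s hϑ hRA hTR hBR h₁ h₂]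
    · rw [if_neg (fun h => h4 (h3.1 h)), if_neg h4, zero_mul]
  · intro g _
    rw [mem_filter, mem_powerset]
    refine ⟨filter_subset _ _, fun t ht => mem_filter.2 ⟨hT ht, t, mem_union_left _ ht,
      Setoid.refl' _ t⟩, fun t ht => mem_filter.2 ⟨(mem_inter.1 ht).2, t,
      mem_union_right _ (mem_inter.1 ht).1, Setoid.refl' _ t⟩⟩

theorem N4_aa {T B : Finset V} (hϑ : Trace T B ϑ) (hw : ∀ e, 0 ≤ w e) (D : Finset V) :
    N4 a b w (1 - s) ϑ T B D =
    ∑ A ∈ D.powerset with T ⊆ A, zz a b w univ * hh a b w A * aa4 a b w s ϑ T B A := by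
  rw [N4_eq hϑ]
  refine sum_congr rfl fun A _ => ?_
  rw [zz_compl a b w hw, aa4_eq]
  ring

/-- **The expansion.** -/
theorem N4_rec {T B : Finset V} (hϑ : Trace T B ϑ) (hw : ∀ e, 0 ≤ w e) (D : Finset V) :
    N4 a b w (1 - s) ϑ T B D =
    ∑ R ∈ D.powerset with T ⊆ R,
      hh a b w R * Phi4 a b w s ϑ T B R * XX a b w s (D \ (R ∪ B)) := by
  rw [N4_aa a b w s hϑ hw]
  have h1 : ∀ A ∈ D.powerset.filter (fun A => T ⊆ A),
      zz a b w univ * hh a b w A * aa4 a b w s ϑ T B A =
      ∑ R ∈ A.powerset with T ⊆ R ∧ B ∩ A ⊆ R, zz a b w univ * hh a b w A *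
        (Phi4 a b w s ϑ T B R * aa a b w s 1 ∅ (A \ R)) := by
    intro A hA
    rw [mem_filter] at hA
    rw [aa4_rec a b w s hϑ hA.2, mul_sum]
  rw [sum_congr rfl h1]
  rw [sum_comm' (t' := D.powerset.filter fun R => T ⊆ R)
    (s' := fun R => (D.powerset.filter fun A => R ⊆ A).filter fun A => B ∩ A ⊆ R)]
  · refine sum_congr rfl fun R hR => ?_
    rw [mem_filter, mem_powerset] at hR
    rw [sum_filter, sum_sup_powerset hR.1, XX, NN_aa a b w s 1 hw, mul_sum]
    have h2 : (D \ (R ∪ B)).powerset.filter (fun A => ∅ ⊆ A) = (D \ (R ∪ B)).powerset :=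
      filter_true_of_mem fun A _ => empty_subset A
    rw [h2, ← sum_filter]
    have h5 : (D \ R).powerset.filter (fun A => B ∩ (R ∪ A) ⊆ R) =
        (D \ (R ∪ B)).powerset := by
      ext A
      rw [mem_filter, mem_powerset, mem_powerset]
      constructor
      · rintro ⟨h, h'⟩ x hx
        have hxR := mem_sdiff.1 (h hx)
        rw [mem_sdiff, mem_union]
        refine ⟨hxR.1, fun k => ?_⟩
        rcases k with k | k
        · exact hxR.2 k
        · exact hxR.2 (h' (mem_inter.2 ⟨k, mem_union_right _ hx⟩))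
      · intro h
        refine ⟨fun x hx => ?_, fun x hx => ?_⟩
        · have := mem_sdiff.1 (h hx)
          rw [mem_union] at this
          exact mem_sdiff.2 ⟨this.1, fun k => this.2 (Or.inl k)⟩
        · rw [mem_inter, mem_union] at hx
          rcases hx.2 with k | k
          · exact k
          · have := mem_sdiff.1 (h k)
            rw [mem_union] at this
            exact absurd (Or.inr hx.1) this.2
    rw [h5]
    refine sum_congr rfl fun A hA => ?_
    rw [mem_powerset] at hA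
    have hd : Disjoint R A := disjoint_left.2 fun x hx hx' =>
      (mem_sdiff.1 (hA hx')).2 (mem_union_left _ hx)
    have h3 : (R ∪ A) \ R = A := by
      rw [union_sdiff_left, sdiff_eq_self_of_disjoint hd.symm]
    rw [h3, hh_union a b w hd]
    ring
  · intro A R
    simp only [mem_filter, mem_powerset]
    constructor
    · rintro ⟨⟨h1, h2⟩, h3, h4, h5⟩
      exact ⟨⟨⟨h1, h3⟩, h5⟩, h3.trans h1, h4⟩
    · rintro ⟨⟨⟨h1, h2⟩, h5⟩, h3, h4⟩
      exact ⟨⟨h1, h4.trans h2⟩, h2, h4, h5⟩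

end Vale.Agent.P167.H262
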