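import Vale.Agent.P167.H262.Gp

/-!
The general principle for functions which see the open edges inside of `T` and the trace of the
clusters of `T`.
-/

namespace Vale.Agent.P167.H262

open Finset Vale.Agent.P167.H623 Vale.Agent.P167.H92

set_option linter.unusedSectionVars false

variable {V E : Type*} [Fintype V] [DecidableEq V] [Fintype E] [DecidableEq E]

/-! ### Merging points of `T` -/

theorem sup_join_self {P : Setoid V} {x y : V} (h : P x y) : P ⊔ join x y = P :=
  sup_eq_left.2 (join_le_iff.2 h)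

theorem wt_sup_join {θ : Finset V → ℝ} {P : Setoid V} {x y : V} (hxy : ¬ P x y)
    (h : θ (cls P x ∪ cls P y) = θ (cls P x) * θ (cls P y)) :
    wt θ (P ⊔ join x y) = wt θ P := by
  have hne : cls P y ≠ cls P x := fun h => hxy (cls_eq_iff.1 h.symm)
  have h1 : wt θ P = θ (cls P x) * (θ (cls P y) *
      ∏ c ∈ ((classes P).erase (cls P x)).erase (cls P y), θ c) := by
    rw [mul_prod_erase _ _ (mem_erase.2 ⟨hne, cls_mem P y⟩), mul_prod_erase _ _ (cls_mem P x)]
    rfl
  have h2 : cls P x ∪ cls P y ∉ ((classes P).erase (cls P x)).erase (cls P y) := by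
    intro h
    rw [mem_erase, mem_erase, mem_classes] at h
    obtain ⟨-, -, u, hu⟩ := h
    have hx : P u x := mem_cls.1 (hu ▸ mem_union_left _ (self_mem_cls P x))
    have hy : P u y := mem_cls.1 (hu ▸ mem_union_right _ (self_mem_cls P y))
    exact hxy (P.trans (P.symm hx) hy)
  rw [h1, wt, classes_sup_join, prod_insert h2, h]
  ring

theorem cw3_join {q : ℝ} {W T B : Finset V} {P : Setoid V} {x y : V} (hx : x ∈ T) (hy : y ∈ T) :
    wt (cw3 q 1 W T B) (P ⊔ join x y) = wt (cw3 q 1 W T B) P := by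
  by_cases hxy : P x y
  · rw [sup_join_self hxy]
  · refine wt_sup_join hxy ?_
    have h1 : ¬ Disjoint (cls P x) T := not_disjoint_iff.2 ⟨x, self_mem_cls P x, hx⟩
    have h2 : ¬ Disjoint (cls P y) T := not_disjoint_iff.2 ⟨y, self_mem_cls P y, hy⟩
    simp only [cw3, disjoint_union_left, h1, h2, and_false, if_false]
    by_cases h3 : Disjoint (cls P x) W <;> by_cases h4 : Disjoint (cls P y) W <;>
      simp [h3, h4]

theorem cw_join {q : ℝ} {J : Finset V} {P : Setoid V} {x y : V} (hx : x ∈ J) (hy : y ∈ J) :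
    wt (cw q 1 J ∅) (P ⊔ join x y) = wt (cw q 1 J ∅) P := by
  by_cases hxy : P x y
  · rw [sup_join_self hxy]
  · refine wt_sup_join hxy ?_
    have h1 : ¬ Disjoint (cls P x) J := not_disjoint_iff.2 ⟨x, self_mem_cls P x, hx⟩
    have h2 : ¬ Disjoint (cls P y) J := not_disjoint_iff.2 ⟨y, self_mem_cls P y, hy⟩
    simp [cw, disjoint_union_left, h1, h2]

variable {a b : E → V}

/-- A function of partitions which does not change when two points of `T` are joined. -/
theorem conf_inv {β : Type*} {T : Finset V} {G : Setoid V → β}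
    (h : ∀ P : Setoid V, ∀ x ∈ T, ∀ y ∈ T, G (P ⊔ join x y) = G P) (ζ : Finset E) :
    ζ ⊆ inE a b T → ∀ P, G (P ⊔ conf a b ζ) = G P := by
  induction ζ using Finset.induction_on with
  | empty =>
    intro _ P
    have : conf a b (∅ : Finset E) = ⊥ := rfl
    rw [this, sup_bot_eq]
  | insert e ζ he ih =>
    intro hζ P
    have h1 := mem_inE.1 (hζ (mem_insert_self e ζ))
    rw [conf_insert, ← sup_assoc, ih (fun x hx => hζ (mem_insert_of_mem hx)),
      h P _ h1.1 _ h1.2]

theorem conf_union (ζ ω : Finset E) : conf a b (ζ ∪ ω) = conf a b ζ ⊔ conf a b ω := by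
  rw [conf, conf, conf, sup_union]

/-- The trace of `P ⊔ conf ζ` is a function of the trace of `P`. -/
theorem trace_conf {T B : Finset V} (ζ : Finset E) : ζ ⊆ inE a b T → ∀ P P' : Setoid V,
    (∀ x ∈ T, ∀ y ∈ T ∪ B, P x y ↔ P' x y) →
    ∀ x ∈ T, ∀ y ∈ T ∪ B, (P ⊔ conf a b ζ) x y ↔ (P' ⊔ conf a b ζ) x y := by
  induction ζ using Finset.induction_on with
  | empty =>
    intro _ P P' h
    have : conf a b (∅ : Finset E) = ⊥ := rfl
    rw [this, sup_bot_eq, sup_bot_eq]
    exact h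
  | insert e ζ he ih =>
    intro hζ P P' h
    have h1 := mem_inE.1 (hζ (mem_insert_self e ζ))
    rw [conf_insert, ← sup_assoc, ← sup_assoc]
    refine ih (fun x hx => hζ (mem_insert_of_mem hx)) _ _ fun x hx y hy => ?_
    rw [sup_join_iff P, sup_join_iff P', h x hx y hy, h x hx _ (mem_union_left _ h1.1),
      h x hx _ (mem_union_left _ h1.2), h _ h1.2 y hy, h _ h1.1 y hy]

theorem Trace.conf {T B : Finset V} {ϑ : Setoid V → ℝ} (h : Trace T B ϑ) {ζ : Finset E}
    (hζ : ζ ⊆ inE a b T) : Trace T B fun P => ϑ (P ⊔ conf a b ζ) where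
  nonneg _ := h.nonneg _
  congr _ _ hP := h.congr _ _ (trace_conf ζ hζ _ _ hP)

/-! ### Splitting off the edges inside of `T` -/

/-- The edge weights outside of `T`. -/
noncomputable def wo (a b : E → V) (w : E → ℝ) (T : Finset V) (e : E) : ℝ :=
  if e ∈ inE a b T then 0 else w e

theorem wo_nonneg {w : E → ℝ} (hw : ∀ e, 0 ≤ w e) (T : Finset V) (e : E) :
    0 ≤ wo a b w T e := by
  rw [wo]
  split_ifs
  · exact le_rfl
  · exact hw e

theorem sum_wo (w : E → ℝ) (T : Finset V) (G : Finset E → ℝ) :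
    ∑ ω ∈ (univ : Finset E).powerset, (∏ e ∈ ω, wo a b w T e) * G ω =
      ∑ ω ∈ (inE a b T)ᶜ.powerset, (∏ e ∈ ω, w e) * G ω := by
  symm
  have h1 : ∑ ω ∈ (inE a b T)ᶜ.powerset, (∏ e ∈ ω, w e) * G ω =
      ∑ ω ∈ (inE a b T)ᶜ.powerset, (∏ e ∈ ω, wo a b w T e) * G ω := by
    refine sum_congr rfl fun ω hω => ?_
    rw [mem_powerset] at hω
    congr 1
    refine prod_congr rfl fun e he => ?_
    rw [wo, if_neg (mem_compl.1 (hω he))]
  rw [h1]
  refine sum_subset (powerset_mono.2 (subset_univ _)) fun ω _ hω => ?_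
  rw [mem_powerset, not_subset] at hω
  obtain ⟨e, he, he'⟩ := hω
  rw [mem_compl, not_not] at he'
  rw [prod_eq_zero he (by rw [wo, if_pos he']), zero_mul]

theorem sum_split (w : E → ℝ) (T : Finset V) (G : Finset E → ℝ) :
    ∑ ω ∈ (univ : Finset E).powerset, (∏ e ∈ ω, w e) * G ω =
      ∑ ζ ∈ (inE a b T).powerset, (∏ e ∈ ζ, w e) *
        ∑ ω ∈ (univ : Finset E).powerset, (∏ e ∈ ω, wo a b w T e) * G (ζ ∪ ω) := by
  have h1 : (univ : Finset E) = inE a b T ∪ (inE a b T)ᶜ := (union_compl _).symm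
  conv_lhs => rw [h1]
  rw [sum_powerset_union' disjoint_compl_right]
  refine sum_congr rfl fun ζ hζ => ?_
  rw [sum_wo, mul_sum]
  refine sum_congr rfl fun ω hω => ?_
  rw [mem_powerset] at hζ hω
  rw [prod_union (disjoint_compl_right.mono hζ hω)]
  ring

theorem XX_wo (w : E → ℝ) (s : ℝ) {T D : Finset V} (h : Disjoint T D) :
    XX a b w s D = zz a b w T * XX a b (wo a b w T) s D := by
  rw [XX, NN, sum_split w T, zz, prod_one_add, sum_mul]
  refine sum_congr rfl fun ζ hζ => ?_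
  rw [mem_powerset] at hζ
  rw [XX, NN]
  congr 1
  refine sum_congr rfl fun ω _ => ?_
  congr 1
  rw [conf_union, sup_comm]
  refine conf_inv (T := T) (G := wt (cw (1 - s) 1 Dᶜ ∅)) (fun P x hx y hy => ?_) ζ hζ _
  exact cw_join (mem_compl.2 (disjoint_left.1 h hx)) (mem_compl.2 (disjoint_left.1 h hy))

/-! ### The main expansion -/

variable (a b) in
/-- The partition function with a function `F` of the open edges inside of `T` and of the trace of
the clusters of `T` on `T ∪ B`. -/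
noncomputable def N5 (w : E → ℝ) (q : ℝ) (F : Finset E → Setoid V → ℝ)
    (T B D : Finset V) : ℝ :=
  ∑ ω ∈ (univ : Finset E).powerset, (∏ e ∈ ω, w e) *
    (F (ω ∩ inE a b T) (conf a b ω) * wt (cw3 q 1 Dᶜ T B) (conf a b ω))

theorem N5_eq (w : E → ℝ) (q : ℝ) (F : Finset E → Setoid V → ℝ) (T B D : Finset V) :
    N5 a b w q F T B D = ∑ ζ ∈ (inE a b T).powerset, (∏ e ∈ ζ, w e) *
      N4 a b (wo a b w T) q (fun P => F ζ (P ⊔ conf a b ζ)) T B D := by
  rw [N5, sum_split w T]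
  refine sum_congr rfl fun ζ hζ => ?_
  rw [mem_powerset] at hζ
  congr 1
  rw [N4, sum_wo, sum_wo]
  refine sum_congr rfl fun ω hω => ?_
  rw [mem_powerset] at hω
  have h1 : (ζ ∪ ω) ∩ inE a b T = ζ := by
    ext e
    rw [mem_inter, mem_union]
    constructor
    · rintro ⟨h | h, h'⟩
      · exact h
      · exact absurd h' (mem_compl.1 (hω h))
    · intro h
      exact ⟨Or.inl h, hζ h⟩
  rw [h1, conf_union, sup_comm]
  congr 2
  exact conf_inv (T := T) (G := wt (cw3 q 1 Dᶜ T B)) (fun P x hx y hy => cw3_join hx hy) ζ hζ _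

variable (a b) in
/-- The coefficients of the expansion. -/
noncomputable def cc (w : E → ℝ) (s : ℝ) (F : Finset E → Setoid V → ℝ) (T B R : Finset V) : ℝ :=
  (∑ ζ ∈ (inE a b T).powerset, (∏ e ∈ ζ, w e) * (hh a b (wo a b w T) R *
    Phi4 a b (wo a b w T) s (fun P => F ζ (P ⊔ conf a b ζ)) T B R)) / zz a b w T

theorem zz_pos {w : E → ℝ} (hw : ∀ e, 0 ≤ w e) (A : Finset V) : 0 < zz a b w A :=
  prod_pos fun e _ => by linarith [hw e]

theorem cc_nonneg {w : E → ℝ} (hw : ∀ e, 0 ≤ w e) {s : ℝ} (hs0 : 0 ≤ s) (hs1 : s ≤ 1)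
    {F : Finset E → Setoid V → ℝ} {T B : Finset V} (hF : ∀ ζ, Trace T B (F ζ)) (R : Finset V) :
    0 ≤ cc a b w s F T B R := by
  refine div_nonneg (sum_nonneg fun ζ hζ => ?_) (zz_pos hw T).le
  refine mul_nonneg (prod_nonneg fun e _ => hw e) (mul_nonneg
    (hh_nonneg a b _ (wo_nonneg hw T) R) ?_)
  exact Phi4_nonneg a b _ s ((hF ζ).conf (mem_powerset.1 hζ)) (wo_nonneg hw T) hs0 hs1 R

/-- **The expansion.** -/
theorem N5_rec {w : E → ℝ} (hw : ∀ e, 0 ≤ w e) (s : ℝ)
    {F : Finset E → Setoid V → ℝ} {T B : Finset V} (hF : ∀ ζ, Trace T B (F ζ)) (D : Finset V) :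
    N5 a b w (1 - s) F T B D =
      ∑ R ∈ D.powerset with T ⊆ R, cc a b w s F T B R * XX a b w s (D \ (R ∪ B)) := by
  rw [N5_eq]
  have h1 : ∀ ζ ∈ (inE a b T).powerset, (∏ e ∈ ζ, w e) *
      N4 a b (wo a b w T) (1 - s) (fun P => F ζ (P ⊔ conf a b ζ)) T B D =
      ∑ R ∈ D.powerset with T ⊆ R, (∏ e ∈ ζ, w e) * (hh a b (wo a b w T) R *
        Phi4 a b (wo a b w T) s (fun P => F ζ (P ⊔ conf a b ζ)) T B R *
          XX a b (wo a b w T) s (D \ (R ∪ B))) := by
    intro ζ hζ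
    rw [N4_rec a b _ s ((hF ζ).conf (mem_powerset.1 hζ)) (wo_nonneg hw T), mul_sum]
  rw [sum_congr rfl h1, sum_comm]
  refine sum_congr rfl fun R hR => ?_
  have hTR : T ⊆ R := (mem_filter.1 hR).2
  have hd : Disjoint T (D \ (R ∪ B)) := disjoint_left.2 fun x hx hx' =>
    (mem_sdiff.1 hx').2 (mem_union_left _ (hTR hx))
  rw [XX_wo w s hd, cc, div_mul_eq_mul_div, sum_mul, eq_div_iff (zz_pos hw T).ne', sum_mul]
  refine sum_congr rfl fun ζ _ => ?_
  ring

/-- **Total monotonicity**, with the wired set `Dᶜ ∪ B ∪ T'`, `T' ⊆ T`. -/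
theorem N5_ratio {w : E → ℝ} (hw : ∀ e, 0 ≤ w e) {s : ℝ} (hs0 : 0 ≤ s) (hs : s < 1)
    {F : Finset E → Setoid V → ℝ} {T B : Finset V} (hF : ∀ ζ, Trace T B (F ζ))
    {T' : Finset V} (hT' : T' ⊆ T) :
    TM univ fun D => N5 a b w (1 - s) F T B D / XX a b w s (D \ (T' ∪ B)) := by
  have h1 : TM univ fun D => ∑ R ∈ (univ : Finset V).powerset with T ⊆ R,
      cc a b w s F T B R *
        (if R ⊆ D then XX a b w s ((D \ R) \ B) /
          XX a b w s (((D \ R) \ B) ∪ (R \ (T' ∪ B))) else 0) := by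
    refine TM.sum _ fun R _ => TM.smul (cc_nonneg hw hs0 hs.le hF R) ?_
    refine TM.shift (S := univ) (g := fun D => XX a b w s (D \ B) /
      XX a b w s ((D \ B) ∪ (R \ (T' ∪ B)))) (tm_off (f := fun D => XX a b w s D /
      XX a b w s (D ∪ (R \ (T' ∪ B)))) ?_)
    refine ratio a b w s hw hs0 hs ?_
    rw [disjoint_left]
    intro x hx hx'
    exact (mem_sdiff.1 (mem_sdiff.1 hx).1).2 (mem_sdiff.1 hx').1
  refine h1.congr fun D _ => ?_
  rw [N5_rec hw s hF, sum_div]
  symm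
  have hsub : (D.powerset.filter fun R => T ⊆ R) ⊆
      (univ : Finset V).powerset.filter fun R => T ⊆ R :=
    filter_subset_filter _ (powerset_mono.2 (subset_univ D))
  rw [← sum_subset hsub]
  · refine sum_congr rfl fun R hR => ?_
    rw [mem_filter, mem_powerset] at hR
    have h2 : (D \ R) \ B = D \ (R ∪ B) := by
      rw [sdiff_sdiff_left]; rfl
    have h3 : D \ (R ∪ B) ∪ R \ (T' ∪ B) = D \ (T' ∪ B) := by
      ext x
      simp only [mem_union, mem_sdiff, not_or]
      have := @hR.1 x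
      have := @hR.2 x
      have := @hT' x
      tauto
    rw [if_pos hR.1, h2, h3]
    ring
  · intro R hR hR'
    rw [mem_filter] at hR hR'
    rw [if_neg, mul_zero]
    exact fun h => hR' ⟨mem_powerset.2 h, hR.2⟩

end Vale.Agent.P167.H262
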