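import Vale.Agent.P167.H262.WstFK

/-!
# P167: crossings with rough walls, any configuration outside, `0 < Q ≤ 1`

`mm a b w q D Z A B`: the probability that `A` and `B` are joined by open edges of `D`, all points of
`Z` identified (immune). `mm_grow`: `A` and `B` grow; `mm_drop`: edges inside `A` or inside `B` are
irrelevant; `mm_le`: the worst exterior relation. In terms of `FK.Pr`: `rough_P`, `rough_D`.
-/

set_option autoImplicit false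
set_option linter.unusedSectionVars false

namespace Vale.Agent.P167.H262

open Finset Vale.Agent.P167.H623 Vale.Agent.P167.H816

section graph

variable {X ι : Type*} [DecidableEq ι] (a b : ι → X) (w : ι → ℝ) (q : ℝ) (D : Finset ι)

/-- `A` and `B` are joined by open edges, the points of `Z` being identified. -/
noncomputable def mm (Z A B : Set X) : ℝ := GP a b w q D (wir Z) fun S => ¬ H816.Sep a b ⊥ A B S

variable {w q}

theorem sep_symm {r : Setoid X} {A B : Set X} {S : Finset ι} (h : H816.Sep a b r A B S) :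
    H816.Sep a b r B A S := fun x hx y hy k => h y hy x hx ((con a b r S).symm k)

theorem mm_comm (hq : 0 < q) (Z A B : Set X) : mm a b w q D Z A B = mm a b w q D Z B A :=
  GP_congr a b D hq (fun _ _ _ _ => Iff.rfl) fun _ _ =>
    not_congr ⟨sep_symm a b, sep_symm a b⟩

theorem mm_eq (hw : ∀ e, 0 ≤ w e) (hq : 0 < q) (Z A B : Set X) : mm a b w q D Z A B =
    1 - GP a b w q D (wir Z) (H816.Sep a b ⊥ A B) := by
  rw [mm, GP_not a b D hw hq]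

theorem mm_nonneg (hw : ∀ e, 0 ≤ w e) (hq : 0 < q) (Z A B : Set X) : 0 ≤ mm a b w q D Z A B :=
  GP_nonneg a b D hw hq _

/-- `A` grows. -/
theorem mm_grow (hw : ∀ e, 0 ≤ w e) (hq : 0 < q) (hq1 : q ≤ 1) {Z A A' : Set X} (B : Set X)
    (hA : A ⊆ A') (hZ : A ⊆ Z) : mm a b w q D Z A B ≤ mm a b w q D (Z ∪ A') A' B := by
  have h := t1_by a b D hw hq hq1 ⊥ B Z hA
  rw [bot_sup_eq, bot_sup_eq, Set.union_eq_self_of_subset_left hZ, Set.union_comm A' Z] at h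
  rw [mm_comm a b D hq Z, mm_comm a b D hq (Z ∪ A'), mm_eq a b D hw hq, mm_eq a b D hw hq]
  linarith

/-- `A` and `B` grow. -/
theorem mm_grow₂ (hw : ∀ e, 0 ≤ w e) (hq : 0 < q) (hq1 : q ≤ 1) {Z A A' B B' : Set X}
    (hA : A ⊆ A') (hB : B ⊆ B') (hZ : A ⊆ Z) (hZ' : B ⊆ Z) :
    mm a b w q D Z A B ≤ mm a b w q D (Z ∪ A' ∪ B') A' B' := by
  refine (mm_grow a b D hw hq hq1 B hA hZ).trans ?_
  rw [mm_comm a b D hq (Z ∪ A'), mm_comm a b D hq (Z ∪ A' ∪ B')]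
  exact mm_grow a b D hw hq hq1 A' hB (hZ'.trans Set.subset_union_left)

/-- The identification of further points decreases the probability. -/
theorem mm_anti (hw : ∀ e, 0 < w e) (hq : 0 < q) (hq1 : q ≤ 1) {Z Z' A : Set X} (B : Set X)
    (hZ : Z ⊆ Z') (hA : A ⊆ Z') : mm a b w q D Z' A B ≤ mm a b w q D Z A B := by
  have h1 : wir Z ≤ ⊥ ⊔ wir Z' := by
    rw [bot_sup_eq]
    rintro x y (h | h)
    · exact Or.inl h
    · exact Or.inr ⟨hZ h.1, hZ h.2⟩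
  have h := worst a b D hw hq hq1 (r := ⊥) B bot_le h1 hA
  rw [bot_sup_eq] at h
  have hw' : ∀ e, 0 ≤ w e := fun e => (hw e).le
  rw [mm_eq a b D hw' hq, mm_eq a b D hw' hq]
  linarith

/-- **Theorem W**. -/
theorem mm_le (hw : ∀ e, 0 < w e) (hq : 0 < q) (hq1 : q ≤ 1) {r : Setoid X} {Z A : Set X}
    (B : Set X) (hr : r ≤ wir Z) (hA : A ⊆ Z) :
    mm a b w q D Z A B ≤ GP a b w q D r fun S => ¬ H816.Sep a b ⊥ A B S := by
  have h := worst a b D hw hq hq1 (r := ⊥) B (r' := r) (Z := Z) bot_le (by rwa [bot_sup_eq]) hA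
  rw [bot_sup_eq] at h
  have hw' : ∀ e, 0 ≤ w e := fun e => (hw e).le
  rw [mm_eq a b D hw' hq, GP_not a b D hw' hq]
  linarith

theorem sep_insert {A B : Set X} {r : Setoid X} {e : ι}
    (he : (a e ∈ A ∧ b e ∈ A) ∨ (a e ∈ B ∧ b e ∈ B)) (S : Finset ι) :
    H816.Sep a b r A B (insert e S) ↔ H816.Sep a b r A B S := by
  constructor
  · exact fun h u hu v hv k => h u hu v hv (con_mono a b le_rfl (subset_insert e S) k)
  · intro h u hu v hv k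
    rw [con_insert_iff] at k
    rcases k with k | ⟨k, k'⟩ | ⟨k, k'⟩
    · exact h u hu v hv k
    · rcases he with ⟨h1, h2⟩ | ⟨h1, h2⟩
      · exact h _ h2 v hv k'
      · exact h u hu _ h1 k
    · rcases he with ⟨h1, h2⟩ | ⟨h1, h2⟩
      · exact h _ h1 v hv k'
      · exact h u hu _ h2 k

/-- An edge between points which are identified is independent. -/
theorem GP_loop (hw : ∀ e, 0 < w e) (hq : 0 < q) {r : Setoid X} {e : ι} (he : e ∉ D)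
    (hr : r (a e) (b e)) {A : Finset ι → Prop} (hA : ∀ S ⊆ D, (A (insert e S) ↔ A S)) :
    GP a b w q (insert e D) r A = GP a b w q D r A := by
  have hw' : ∀ e, 0 ≤ w e := fun e => (hw e).le
  rw [GP_split a b D hw hq r he, sup_join_of_rel hr,
    GP_congr a b D hq (fun _ _ _ _ => Iff.rfl) hA, od_eq a b D hw hq,
    GP_true a b D hw' hq fun S _ => le_con a b r S hr]
  have := hw e
  rw [div_eq_iff (by linarith)]
  ring

/-- Edges inside `A` or inside `B` are irrelevant. -/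
theorem mm_drop (hw : ∀ e, 0 < w e) (hq : 0 < q) {Z A B : Set X} (hA : A ⊆ Z) (hB : B ⊆ Z)
    (L : Finset ι) (hL : ∀ e ∈ L, e ∈ D → (a e ∈ A ∧ b e ∈ A) ∨ (a e ∈ B ∧ b e ∈ B)) :
    mm a b w q D Z A B = mm a b w q (D \ L) Z A B := by
  induction L using Finset.induction_on with
  | empty => rw [sdiff_empty]
  | insert e L heL ih =>
    rw [ih fun f hf => hL f (mem_insert_of_mem hf)]
    by_cases he : e ∈ D
    · have h1 : D \ L = insert e (D \ insert e L) := by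
        ext x
        simp only [mem_sdiff, mem_insert]
        by_cases hx : x = e
        · subst hx; simp [he, heL]
        · simp [hx]
      have h2 : e ∉ D \ insert e L := by simp
      have h3 := hL e (mem_insert_self e L) he
      conv_lhs => rw [h1]
      refine GP_loop a b _ hw hq h2 ?_ fun S _ => not_congr (sep_insert a b h3 S)
      rcases h3 with h3 | h3
      · exact Or.inr ⟨hA h3.1, hA h3.2⟩
      · exact Or.inr ⟨hB h3.1, hB h3.2⟩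
    · congr 1
      ext x
      simp only [mem_sdiff, mem_insert]
      by_cases hx : x = e
      · subst hx; simp [he]
      · simp [hx]

/-- **Rough walls**: `A ⊆ A'`, `B ⊆ B'`, the edges of `L` lie inside `A'` or inside `B'`. -/
theorem mm_rough (hw : ∀ e, 0 < w e) (hq : 0 < q) (hq1 : q ≤ 1) {Z A A' B B' : Set X}
    (hA : A ⊆ A') (hB : B ⊆ B') (hZ : A ⊆ Z) (hZ' : B ⊆ Z) (L : Finset ι)
    (hL : ∀ e ∈ L, e ∈ D → (a e ∈ A' ∧ b e ∈ A') ∨ (a e ∈ B' ∧ b e ∈ B')) :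
    mm a b w q D Z A B ≤ mm a b w q (D \ L) (Z ∪ A' ∪ B') A' B' :=
  (mm_grow₂ a b D (fun e => (hw e).le) hq hq1 hA hB hZ hZ').trans (mm_drop a b D hw hq
    (Set.subset_union_right.trans Set.subset_union_left) Set.subset_union_right L hL).le

end graph

/-! ### `FK.Pr` -/

open Vale.Agent.P167.FK
open Relation (ReflTransGen)
open Vale.Agent.P145.FB (PStep PConn)

variable {Q : ℝ} {E S L D : Finset (ℤ × ℤ)} {η ζ : Cfg}

theorem CI_iff' {A B : Set (ℤ × ℤ)} (hA : ∀ s ∈ A, Even (s.1 + s.2)) {S : Finset (ℤ × ℤ)}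
    (hS : S ⊆ E) : cf E η S ∈ CI E A B ↔ ¬ H816.Sep pa pb ⊥ A B S := by
  unfold H816.Sep
  push Not
  constructor
  · rintro ⟨u, hu, v, hv, h⟩
    exact ⟨u, hu, v, hv, (con_P hS (hA u hu)).1 h⟩
  · rintro ⟨u, hu, v, hv, h⟩
    exact ⟨u, hu, v, hv, (con_P hS (hA u hu)).2 h⟩

theorem CD_iff' {A B : Set (ℤ × ℤ)} (hA : ∀ s ∈ A, Odd (s.1 + s.2)) {S : Finset (ℤ × ℤ)}
    (hS : S ⊆ E) : cf E η (E \ S) ∈ CD E A B ↔ ¬ H816.Sep da db ⊥ A B S := by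
  unfold H816.Sep
  push Not
  constructor
  · rintro ⟨u, hu, v, hv, h⟩
    exact ⟨u, hu, v, hv, (con_D hS (hA u hu)).1 h⟩
  · rintro ⟨u, hu, v, hv, h⟩
    exact ⟨u, hu, v, hv, (con_D hS (hA u hu)).2 h⟩

/-- The probability in terms of `mm` when `ζ` joins the boundary sites. -/
theorem Pr_eq_mm (hQ : 0 < Q) (hζ : Good ζ)
    (hZ : ∀ s ∈ Pb E, ∀ t ∈ Pb E, s ∈ Ev E → t ∈ Ev E → PC (cf E ζ ∅) s t)
    {A : Set (ℤ × ℤ)} (hA : ∀ s ∈ A, Even (s.1 + s.2)) (B : Set (ℤ × ℤ)) :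
    Pr Q E ζ (CI E A B) = mm pa pb (fun _ => Q) (Q ^ 2) E (Pb E) A B := by
  rw [Pr_eq_GP hQ hζ, mm]
  refine GP_congr pa pb E (pow_pos hQ 2) (fun x hx y hy => ⟨fun h => ?_, fun h => ?_⟩)
    fun S hS => CI_iff' hA hS
  · have := PCs_le_wir (E := E) (η := ζ) h
    rwa [bot_sup_eq] at this
  · rcases h with h | ⟨h, h'⟩
    · exact Or.inl h
    · rw [PCs_iff (even_Pb h)]
      exact hZ x h y h' ((mem_ends _ _ _).1 hx) ((mem_ends _ _ _).1 hy)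

theorem Pr_eq_mm_dual (hQ : 0 < Q) (hζ : Good ζ)
    (hZ : ∀ s ∈ Db E, ∀ t ∈ Db E, s ∈ Od E → t ∈ Od E → DC (cf E ζ E) s t)
    {A : Set (ℤ × ℤ)} (hA : ∀ s ∈ A, Odd (s.1 + s.2)) (B : Set (ℤ × ℤ)) :
    Pr Q E ζ (CD E A B) = mm da db (fun _ => Q) (Q ^ 2) E (Db E) A B := by
  rw [Pr_eq_GP_dual hQ hζ, mm]
  refine GP_congr da db E (pow_pos hQ 2) (fun x hx y hy => ⟨fun h => ?_, fun h => ?_⟩)
    fun S hS => CD_iff' hA hS
  · have := DCs_le_wir (E := E) (η := ζ) h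
    rwa [bot_sup_eq] at this
  · rcases h with h | ⟨h, h'⟩
    · exact Or.inl h
    · rw [DCs_iff (odd_Db h)]
      exact hZ x h y h' ((mem_ends _ _ _).1 hx) ((mem_ends _ _ _).1 hy)

/-- **Theorem W**, any finite set of squares `E`, any sets `A`, `B` of sites, any set `Z` which
contains `A` and the boundary sites of `E`. -/
theorem mm_le_Pr (hQ : 0 < Q) (hQ1 : Q ≤ 1) (hη : Good η) (hED : E ⊆ D) {Z A : Set (ℤ × ℤ)}
    (hZ : Pb E ⊆ Z) (hA : A ⊆ Z) (hAe : ∀ s ∈ A, Even (s.1 + s.2)) (B : Set (ℤ × ℤ)) :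
    mm pa pb (fun _ => Q) (Q ^ 2) E Z A B ≤ Pr Q D η (CI E A B) := by
  refine le_Pr_of_forall hQ hη hED fun T _ => ?_
  rw [Pr_eq_GP hQ (good_cf D hη T)]
  have hr : PCs (cf E (cf D η T) ∅) ≤ wir Z := by
    refine PCs_le_wir.trans ?_
    rw [bot_sup_eq]
    rintro x y (h | h)
    · exact Or.inl h
    · exact Or.inr ⟨hZ h.1, hZ h.2⟩
  refine (mm_le pa pb E (fun _ => hQ) (pow_pos hQ 2) (pow_le_one' hQ hQ1) B hr hA).trans_eq ?_
  exact GP_congr pa pb E (pow_pos hQ 2) (fun _ _ _ _ => Iff.rfl) fun S hS =>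
    (CI_iff' hAe hS).symm

theorem mm_le_Pr_dual (hQ : 0 < Q) (hQ1 : Q ≤ 1) (hη : Good η) (hED : E ⊆ D)
    {Z A : Set (ℤ × ℤ)} (hZ : Db E ⊆ Z) (hA : A ⊆ Z) (hAe : ∀ s ∈ A, Odd (s.1 + s.2))
    (B : Set (ℤ × ℤ)) :
    mm da db (fun _ => Q) (Q ^ 2) E Z A B ≤ Pr Q D η (CD E A B) := by
  refine le_Pr_of_forall hQ hη hED fun T _ => ?_
  rw [Pr_eq_GP_dual hQ (good_cf D hη T)]
  have hr : DCs (cf E (cf D η T) E) ≤ wir Z := by
    refine DCs_le_wir.trans ?_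
    rw [bot_sup_eq]
    rintro x y (h | h)
    · exact Or.inl h
    · exact Or.inr ⟨hZ h.1, hZ h.2⟩
  refine (mm_le da db E (fun _ => hQ) (pow_pos hQ 2) (pow_le_one' hQ hQ1) B hr hA).trans_eq ?_
  exact GP_congr da db E (pow_pos hQ 2) (fun _ _ _ _ => Iff.rfl) fun S hS =>
    (CD_iff' hAe hS).symm

theorem CI_mono {A A' B B' : Set (ℤ × ℤ)} (hE : S ⊆ E) (hA : A ⊆ A') (hB : B ⊆ B') :
    CI S A B ⊆ CI E A' B' := by
  rintro ω ⟨u, hu, v, hv, h⟩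
  refine ⟨u, hA hu, v, hB hv, Relation.ReflTransGen.mono (fun x y k => ⟨k.1, k.2.1, k.2.2.1, ?_⟩)
    u v h⟩
  exact Finset.mem_coe.2 (hE (Finset.mem_coe.1 k.2.2.2))

theorem CD_mono {A A' B B' : Set (ℤ × ℤ)} (hE : S ⊆ E) (hA : A ⊆ A') (hB : B ⊆ B') :
    CD S A B ⊆ CD E A' B' := by
  rintro ω ⟨u, hu, v, hv, h⟩
  refine ⟨u, hA hu, v, hB hv, Relation.ReflTransGen.mono (fun x y k => ⟨k.1, k.2.1, k.2.2.1, ?_⟩)
    u v h⟩
  exact Finset.mem_coe.2 (hE (Finset.mem_coe.1 k.2.2.2))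

/-- **Crossings with rough walls** (R0): `A`, `B` boundary sites of `S`; every square of `L` has its
even corners in `A' ⊇ A` or in `B' ⊇ B`. For every configuration outside of `S \ L` the sets `A'` and
`B'` are joined inside of `S \ L` with at least the probability of `A`, `B` being joined inside of `S`
with the outside `ζ` which joins the boundary sites of `S`. -/
theorem rough_P (hQ : 0 < Q) (hQ1 : Q ≤ 1) (hη : Good η) (hζ : Good ζ)
    (hZ : ∀ s ∈ Pb S, ∀ t ∈ Pb S, s ∈ Ev S → t ∈ Ev S → PC (cf S ζ ∅) s t)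
    {A A' B B' : Set (ℤ × ℤ)} (hA : A ⊆ Pb S) (hB : B ⊆ Pb S) (hAA : A ⊆ A') (hBB : B ⊆ B')
    (hL : ∀ e ∈ L, e ∈ S → (pa e ∈ A' ∧ pb e ∈ A') ∨ (pa e ∈ B' ∧ pb e ∈ B')) (hD : S \ L ⊆ D) :
    Pr Q S ζ (CI S A B) ≤ Pr Q D η (CI (S \ L) A' B') := by
  set Ae : Set (ℤ × ℤ) := {s | s ∈ A' ∧ Even (s.1 + s.2)} with hAe
  set Be : Set (ℤ × ℤ) := {s | s ∈ B' ∧ Even (s.1 + s.2)} with hBe
  have hL' : ∀ e ∈ L, e ∈ S → (pa e ∈ Ae ∧ pb e ∈ Ae) ∨ (pa e ∈ Be ∧ pb e ∈ Be) := by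
    intro e he heS
    rcases hL e he heS with h | h
    · exact Or.inl ⟨⟨h.1, even_pa e⟩, ⟨h.2, even_pb e⟩⟩
    · exact Or.inr ⟨⟨h.1, even_pa e⟩, ⟨h.2, even_pb e⟩⟩
  have h1 : Pr Q S ζ (CI S A B) = mm pa pb (fun _ => Q) (Q ^ 2) S (Pb S) A B :=
    Pr_eq_mm hQ hζ hZ (fun s hs => even_Pb (hA hs)) B
  have h2 := mm_rough pa pb S (w := fun _ => Q) (fun _ => hQ) (pow_pos hQ 2) (pow_le_one' hQ hQ1)
    (Z := Pb S) (A := A) (B := B) (A' := Ae) (B' := Be)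
    (fun s hs => ⟨hAA hs, even_Pb (hA hs)⟩) (fun s hs => ⟨hBB hs, even_Pb (hB hs)⟩) hA hB L hL'
  have hPb : Pb (S \ L) ⊆ Pb S ∪ Ae ∪ Be := by
    rintro s ⟨e, he, hs⟩
    by_cases heS : e ∈ S
    · have heL : e ∈ L := by
        by_contra h
        exact he (mem_sdiff.2 ⟨heS, h⟩)
      rcases hL' e heL heS with h | h
      · rcases hs with rfl | rfl
        · exact Or.inl (Or.inr h.1)
        · exact Or.inl (Or.inr h.2)
      · rcases hs with rfl | rfl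
        · exact Or.inr h.1
        · exact Or.inr h.2
    · exact Or.inl (Or.inl ⟨e, heS, hs⟩)
  have h3 := mm_le_Pr hQ hQ1 hη hD (Z := Pb S ∪ Ae ∪ Be) (A := Ae) hPb
    (Set.subset_union_right.trans Set.subset_union_left) (fun s hs => hs.2) Be
  rw [h1]
  refine (h2.trans h3).trans (FKA.Pr_mono hQ (CI_mono (Subset.refl _) ?_ ?_))
  · exact fun s hs => hs.1
  · exact fun s hs => hs.1

/-- Dual crossings with rough walls. -/
theorem rough_D (hQ : 0 < Q) (hQ1 : Q ≤ 1) (hη : Good η) (hζ : Good ζ)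
    (hZ : ∀ s ∈ Db S, ∀ t ∈ Db S, s ∈ Od S → t ∈ Od S → DC (cf S ζ S) s t)
    {A A' B B' : Set (ℤ × ℤ)} (hA : A ⊆ Db S) (hB : B ⊆ Db S) (hAA : A ⊆ A') (hBB : B ⊆ B')
    (hL : ∀ e ∈ L, e ∈ S → (da e ∈ A' ∧ db e ∈ A') ∨ (da e ∈ B' ∧ db e ∈ B')) (hD : S \ L ⊆ D) :
    Pr Q S ζ (CD S A B) ≤ Pr Q D η (CD (S \ L) A' B') := by
  set Ae : Set (ℤ × ℤ) := {s | s ∈ A' ∧ Odd (s.1 + s.2)} with hAe
  set Be : Set (ℤ × ℤ) := {s | s ∈ B' ∧ Odd (s.1 + s.2)} with hBe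
  have hL' : ∀ e ∈ L, e ∈ S → (da e ∈ Ae ∧ db e ∈ Ae) ∨ (da e ∈ Be ∧ db e ∈ Be) := by
    intro e he heS
    rcases hL e he heS with h | h
    · exact Or.inl ⟨⟨h.1, odd_da e⟩, ⟨h.2, odd_db e⟩⟩
    · exact Or.inr ⟨⟨h.1, odd_da e⟩, ⟨h.2, odd_db e⟩⟩
  have h1 : Pr Q S ζ (CD S A B) = mm da db (fun _ => Q) (Q ^ 2) S (Db S) A B :=
    Pr_eq_mm_dual hQ hζ hZ (fun s hs => odd_Db (hA hs)) B
  have h2 := mm_rough da db S (w := fun _ => Q) (fun _ => hQ) (pow_pos hQ 2) (pow_le_one' hQ hQ1)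
    (Z := Db S) (A := A) (B := B) (A' := Ae) (B' := Be)
    (fun s hs => ⟨hAA hs, odd_Db (hA hs)⟩) (fun s hs => ⟨hBB hs, odd_Db (hB hs)⟩) hA hB L hL'
  have hPb : Db (S \ L) ⊆ Db S ∪ Ae ∪ Be := by
    rintro s ⟨e, he, hs⟩
    by_cases heS : e ∈ S
    · have heL : e ∈ L := by
        by_contra h
        exact he (mem_sdiff.2 ⟨heS, h⟩)
      rcases hL' e heL heS with h | h
      · rcases hs with rfl | rfl
        · exact Or.inl (Or.inr h.1)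
        · exact Or.inl (Or.inr h.2)
      · rcases hs with rfl | rfl
        · exact Or.inr h.1
        · exact Or.inr h.2
    · exact Or.inl (Or.inl ⟨e, heS, hs⟩)
  have h3 := mm_le_Pr_dual hQ hQ1 hη hD (Z := Db S ∪ Ae ∪ Be) (A := Ae) hPb
    (Set.subset_union_right.trans Set.subset_union_left) (fun s hs => hs.2) Be
  rw [h1]
  refine (h2.trans h3).trans (FKA.Pr_mono hQ (CD_mono (Subset.refl _) ?_ ?_))
  · exact fun s hs => hs.1
  · exact fun s hs => hs.1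

/-- (R0) for rectangles. -/
theorem rough_rect {a b c d : ℤ} (hQ : 0 < Q) (hQ1 : Q ≤ 1) (hη : Good η)
    {A A' B B' : Set (ℤ × ℤ)} (hA : A ⊆ Pb (Rsq a b c d)) (hB : B ⊆ Pb (Rsq a b c d))
    (hAA : A ⊆ A') (hBB : B ⊆ B')
    (hL : ∀ e ∈ L, e ∈ Rsq a b c d → (pa e ∈ A' ∧ pb e ∈ A') ∨ (pa e ∈ B' ∧ pb e ∈ B'))
    (hD : Rsq a b c d \ L ⊆ D) :
    Pr Q (Rsq a b c d) eta1 (CI (Rsq a b c d) A B) ≤ Pr Q D η (CI (Rsq a b c d \ L) A' B') :=
  rough_P hQ hQ1 hη good_eta1 (fun _ hs _ ht _ _ => outside_P hs ht) hA hB hAA hBB hL hD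

theorem rough_rect_dual {a b c d : ℤ} (hQ : 0 < Q) (hQ1 : Q ≤ 1) (hη : Good η)
    {A A' B B' : Set (ℤ × ℤ)} (hA : A ⊆ Db (Rsq a b c d)) (hB : B ⊆ Db (Rsq a b c d))
    (hAA : A ⊆ A') (hBB : B ⊆ B')
    (hL : ∀ e ∈ L, e ∈ Rsq a b c d → (da e ∈ A' ∧ db e ∈ A') ∨ (da e ∈ B' ∧ db e ∈ B'))
    (hD : Rsq a b c d \ L ⊆ D) :
    Pr Q (Rsq a b c d) eta0 (CD (Rsq a b c d) A B) ≤ Pr Q D η (CD (Rsq a b c d \ L) A' B') :=
  rough_D hQ hQ1 hη good_eta0 (fun _ hs _ ht _ _ => outside_D hs ht) hA hB hAA hBB hL hD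

end Vale.Agent.P167.H262
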