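import Vale.Agent.P167.H816.Cmp
import Vale.Agent.P167.H262.Cor

/-!
# P167: the worst boundary condition for a connection by open edges, `q ≤ 1`

`A` and `B` are joined by open edges of `D` with the smallest probability, among all exterior
relations `r ≤ wir Z`, when all the points of `Z ⊇ A` are identified (Theorem W of board #2471).
-/

set_option autoImplicit false
set_option linter.unusedSectionVars false

namespace Vale.Agent.P167.H262

open Finset Vale.Agent.P167.H623 Vale.Agent.P167.H92 Vale.Agent.P167.H816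

variable {X ι : Type*} [DecidableEq ι] (a b : ι → X) {w : ι → ℝ} {q : ℝ} (D : Finset ι)

/-- **T1 with bystanders**, arbitrary background relation `r`: the points of `Z` are identified with
those of `W`, the connections do not use this identification. -/
theorem t1_by (hw : ∀ e, 0 ≤ w e) (hq : 0 < q) (hq1 : q ≤ 1) (r : Setoid X) (T Z : Set X)
    {W W' : Set X} (h : W ⊆ W') :
    GP a b w q D (r ⊔ wir (W' ∪ Z)) (Sep a b r T W') ≤
      GP a b w q D (r ⊔ wir (W ∪ Z)) (Sep a b r T W) := by
  classical
  have hY : ∀ e ∈ D, a e ∈ ends a b D ∧ b e ∈ ends a b D :=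
    fun e he => ⟨fst_mem_ends a b D he, snd_mem_ends a b D he⟩
  by_cases h3 : ∃ t ∈ T, ∃ x ∈ W', r t x
  · obtain ⟨t, ht, x, hx, htx⟩ := h3
    rw [GP_false a b D fun S _ hS => hS t ht x hx (le_con a b r S htx)]
    exact GP_nonneg a b D hw hq _
  · push Not at h3
    have h4 : ∀ t ∈ T, ∀ x ∈ W, ¬ r t x := fun t ht x hx => h3 t ht x (h hx)
    rw [GP_graph a b D r hY hw hq, GP_graph a b D r hY hw hq]
    have e1 : ∀ V : Set X, (∀ t ∈ T, ∀ x ∈ V, ¬ r t x) →
        prob (gA a b D r hY) (gB a b D r hY) (pw D w) q (gW (ends a b D) r (V ∪ Z))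
          (fun ω => Sep a b r T V (gS D ω)) =
        Ew (gA a b D r hY) (gB a b D r hY) (fun e : D => w e) q
          (gW (ends a b D) r V ∪ gW (ends a b D) r Z ∪ ∅)
          (fun ω => if Miss (gA a b D r hY) (gB a b D r hY) (gW (ends a b D) r T)
            (gW (ends a b D) r V) ω then 1 else 0) := by
      intro V hV
      rw [prob_eq (fun e => (pw_mem D hw e).2) hq, union_empty]
      have e2 : (fun e : D => pw D w e / (1 - pw D w e)) = fun e : D => w e := by
        funext e
        exact pw_div D hw e
      have e3 : gW (ends a b D) r (V ∪ Z) = gW (ends a b D) r V ∪ gW (ends a b D) r Z := by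
        ext v
        obtain ⟨x, hx, rfl⟩ := gv_surj r v
        rw [mem_union, mem_gW, mem_gW, mem_gW]
        constructor
        · rintro ⟨z, hz | hz, h⟩
          · exact Or.inl ⟨z, hz, h⟩
          · exact Or.inr ⟨z, hz, h⟩
        · rintro (⟨z, hz, h⟩ | ⟨z, hz, h⟩)
          · exact ⟨z, Or.inl hz, h⟩
          · exact ⟨z, Or.inr hz, h⟩
      rw [e2, e3]
      congr 1
      funext ω
      exact if_congr (miss_iff a b D r hY hV ω).symm rfl rfl
    rw [e1 W' h3, e1 W h4]
    refine H262.t1 (w := fun e : D => w e) (fun e => hw e) hq hq1 (empty_subset _) ?_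
    intro v hv
    obtain ⟨x, hx, rfl⟩ := gv_surj r v
    rw [mem_gW] at hv ⊢
    obtain ⟨z, hz, h5⟩ := hv
    exact ⟨z, h hz, h5⟩

/-! ### One edge -/

open Classical in
/-- The odds of the edge `e`. -/
noncomputable def od (w : ι → ℝ) (q : ℝ) (r : Setoid X) (e : ι) : ℝ :=
  GE a b w q D r fun S => if con a b r S (a e) (b e) then w e else w e / q

theorem od_nonneg (hw : ∀ e, 0 < w e) (hq : 0 < q) (r : Setoid X) (e : ι) :
    0 ≤ od a b D w q r e := by
  classical
  rw [od, ← GE_const (a := a) (b := b) (D := D) (r := r) (fun e => (hw e).le) hq 0]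
  refine GE_mono (fun e => (hw e).le) hq fun S _ => ?_
  split_ifs
  · exact (hw e).le
  · exact (div_pos (hw e) hq).le

theorem con_join (r : Setoid X) (e : ι) (S : Finset ι) :
    con a b (r ⊔ join (a e) (b e)) S = con a b r (insert e S) := by
  rw [con_insert, con, con, sup_right_comm]

/-- The expectation, the edge `e` being closed or open. -/
theorem GE_split (hw : ∀ e, 0 < w e) (hq : 0 < q) (r : Setoid X) {e : ι} (he : e ∉ D)
    (F : Finset ι → ℝ) :
    GE a b w q (insert e D) r F = (GE a b w q D r F + od a b D w q r e *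
      GE a b w q D (r ⊔ join (a e) (b e)) (fun S => F (insert e S))) /
        (1 + od a b D w q r e) := by
  classical
  set g : Finset ι → ℝ := gw a b w q (insert e D) r with hg
  have hgp : ∀ S, 0 < g S := fun S => gw_pos hw hq S
  have hrec : Rec a b w q (insert e D) r g := gw_rec hq.ne'
  have hr0 : Rec a b w q D r g := fun S hS f hf hfS =>
    hrec S (hS.trans (subset_insert e D)) f (mem_insert_of_mem hf) hfS
  have hr1 : Rec a b w q D (r ⊔ join (a e) (b e)) fun S => g (insert e S) := by
    intro S hS f hf hfS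
    beta_reduce
    have h1 : f ≠ e := fun h => he (h ▸ hf)
    rw [Finset.insert_comm, hrec (insert e S) (insert_subset_insert e hS) f (mem_insert_of_mem hf)
      (by simp [h1, hfS]), con_join]
  set Z : ℝ := ∑ S ∈ D.powerset, g S with hZ
  have hZp : 0 < Z := sum_pos (fun S _ => hgp S) ⟨∅, empty_mem_powerset D⟩
  have h0 : ∀ G : Finset ι → ℝ, ∑ S ∈ D.powerset, g S * G S = Z * GE a b w q D r G := by
    intro G
    rw [← hr0.sum_div hq (hgp ∅).ne' G, ← hZ]
    field_simp
  have h1 : ∑ S ∈ D.powerset, g (insert e S) = Z * od a b D w q r e := by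
    rw [od, ← h0]
    refine sum_congr rfl fun S hS => ?_
    have hS' := mem_powerset.1 hS
    rw [hrec S (hS'.trans (subset_insert e D)) e (mem_insert_self e D) fun h => he (hS' h),
      mul_comm]
  have h2 : ∀ G : Finset ι → ℝ, ∑ S ∈ D.powerset, g (insert e S) * G S =
      Z * od a b D w q r e * GE a b w q D (r ⊔ join (a e) (b e)) G := by
    intro G
    rw [← h1, ← hr1.sum_div hq (hgp _).ne' G]
    have : ∑ S ∈ D.powerset, g (insert e S) ≠ 0 :=
      (sum_pos (fun S _ => hgp _) ⟨∅, empty_mem_powerset D⟩).ne'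
    field_simp
  rw [GE, sum_powerset_insert he, sum_powerset_insert he, h0, h2, h1, ← hZ]
  have hod := od_nonneg a b D hw hq r e
  rw [mul_assoc, ← mul_add]
  have e1 : Z + Z * od a b D w q r e = Z * (1 + od a b D w q r e) := by ring
  rw [e1, mul_div_mul_left _ _ hZp.ne']

theorem GP_split (hw : ∀ e, 0 < w e) (hq : 0 < q) (r : Setoid X) {e : ι} (he : e ∉ D)
    (A : Finset ι → Prop) :
    GP a b w q (insert e D) r A = (GP a b w q D r A + od a b D w q r e *
      GP a b w q D (r ⊔ join (a e) (b e)) (fun S => A (insert e S))) /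
        (1 + od a b D w q r e) := by
  rw [GP, GE_split a b D hw hq r he]
  rfl

theorem od_eq (hw : ∀ e, 0 < w e) (hq : 0 < q) (r : Setoid X) (e : ι) :
    od a b D w q r e = w e / q - (w e / q - w e) *
      GP a b w q D r (fun S => con a b r S (a e) (b e)) := by
  classical
  have hZ := sum_gw_pos (a := a) (b := b) (D := D) (r := r) (fun e => (hw e).le) hq
  rw [od, GP, GE, GE, eq_sub_iff_add_eq, ← mul_div_assoc, ← add_div, div_eq_iff hZ.ne', mul_sum,
    mul_sum, ← sum_add_distrib]
  refine sum_congr rfl fun S _ => ?_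
  by_cases h : con a b r S (a e) (b e)
  · rw [if_pos h, if_pos h]
    ring
  · rw [if_neg h, if_neg h]
    ring

theorem od_le (hw : ∀ e, 0 < w e) (hq : 0 < q) (hq1 : q ≤ 1) {r : Setoid X} {Z : Set X}
    {e : ι} (h : (∃ z ∈ Z, r (a e) z) ∨ ∃ z ∈ Z, r (b e) z) :
    od a b D w q (r ⊔ wir Z) e ≤ od a b D w q r e := by
  have hle : ∀ x y : X, (∃ z ∈ Z, r x z) → GP a b w q D r (fun S => con a b r S x y) ≤
      GP a b w q D (r ⊔ wir Z) (fun S => con a b (r ⊔ wir Z) S x y) := by
    rintro x y ⟨z, hz, hxz⟩
    have h1 := t1_root a b D (fun e => (hw e).le) hq hq1 r {y} (x := z) (W := Z) hz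
    refine le_trans (le_of_eq ?_) (h1.trans (le_of_eq ?_))
    · refine GP_congr a b D hq (fun _ _ _ _ => Iff.rfl) fun S _ => ?_
      constructor
      · intro h
        exact ⟨y, rfl, (con a b r S).symm ((con a b r S).trans
          (le_con a b r S (r.symm hxz)) h)⟩
      · rintro ⟨t, ht, h⟩
        rw [Set.mem_singleton_iff] at ht
        subst ht
        exact (con a b r S).trans (le_con a b r S hxz) ((con a b r S).symm h)
    · refine GP_congr a b D hq (fun _ _ _ _ => Iff.rfl) fun S _ => ?_
      have h2 : con a b (r ⊔ wir Z) S x z :=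
        con_mono a b le_sup_left (Subset.refl S) (le_con a b r S hxz)
      constructor
      · rintro ⟨t, ht, h⟩
        rw [Set.mem_singleton_iff] at ht
        subst ht
        exact (con a b _ S).trans h2 ((con a b _ S).symm h)
      · intro h
        exact ⟨y, rfl, (con a b _ S).symm ((con a b _ S).trans ((con a b _ S).symm h2) h)⟩
  have key : GP a b w q D r (fun S => con a b r S (a e) (b e)) ≤
      GP a b w q D (r ⊔ wir Z) (fun S => con a b (r ⊔ wir Z) S (a e) (b e)) := by
    rcases h with h | h
    · exact hle _ _ h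
    · refine le_trans (le_of_eq ?_) ((hle _ (a e) h).trans (le_of_eq ?_))
      · refine GP_congr a b D hq (fun _ _ _ _ => Iff.rfl) fun S _ => ?_
        exact ⟨fun h => (con a b _ S).symm h, fun h => (con a b _ S).symm h⟩
      · refine GP_congr a b D hq (fun _ _ _ _ => Iff.rfl) fun S _ => ?_
        exact ⟨fun h => (con a b _ S).symm h, fun h => (con a b _ S).symm h⟩
  rw [od_eq a b D hw hq, od_eq a b D hw hq]
  have h1 : 0 ≤ w e / q - w e := by
    rw [sub_nonneg, le_div_iff₀ hq]
    nlinarith [hw e]
  nlinarith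

/-! ### Theorem W -/

/-- Without an edge at the class of `x` nothing new is joined to `x`. -/
theorem con_iso {r : Setoid X} {S : Finset ι} {x y : X}
    (h : ∀ e ∈ S, ¬ r x (a e) ∧ ¬ r x (b e)) (hc : con a b r S x y) : r x y := by
  induction S using Finset.induction_on generalizing y with
  | empty => rwa [con_empty] at hc
  | insert e S _ ih =>
    have ih' := fun {y : X} => ih (fun e he => h e (mem_insert_of_mem he)) (y := y)
    obtain ⟨h1, h2⟩ := h e (mem_insert_self e S)
    rw [con_insert_iff] at hc
    rcases hc with hc | ⟨hc, -⟩ | ⟨hc, -⟩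
    · exact ih' hc
    · exact absurd (ih' hc) h1
    · exact absurd (ih' hc) h2

theorem sup_wir_insert {r : Setoid X} {Z : Set X} {x y z : X} (hz : z ∈ Z) (h : r x z) :
    r ⊔ wir Z ⊔ join x y = r ⊔ wir (insert y Z) := by
  apply le_antisymm
  · refine sup_le (sup_le le_sup_left ?_) (join_le_iff'.2 ?_)
    · rintro u v (h | h)
      · rw [h]
      · have h1 : wir (insert y Z) ≤ r ⊔ wir (insert y Z) := le_sup_right
        exact h1 (Or.inr ⟨Or.inr h.1, Or.inr h.2⟩)
    · exact (sup_wir_iff _ _ _ _).2 (Or.inr ⟨⟨z, Or.inr hz, h⟩, y, Or.inl rfl, r.refl y⟩)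
  · have h0 : r ≤ r ⊔ wir Z ⊔ join x y := le_sup_left.trans le_sup_left
    have h1 : wir Z ≤ r ⊔ wir Z ⊔ join x y := le_sup_right.trans le_sup_left
    have h2 : (r ⊔ wir Z ⊔ join x y) y z := by
      have h3 : join x y ≤ r ⊔ wir Z ⊔ join x y := le_sup_right
      exact Setoid.trans' _ (Setoid.symm' _ (h3 (join_le_iff'.1 le_rfl))) (h0 h)
    have h3 : ∀ u ∈ insert y Z, (r ⊔ wir Z ⊔ join x y) u z := by
      rintro u (rfl | hu)
      · exact h2
      · exact h1 (Or.inr ⟨hu, hz⟩)
    refine sup_le h0 ?_
    rintro u v (h | ⟨hu, hv⟩)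
    · rw [h]
    · exact Setoid.trans' _ (h3 u hu) (Setoid.symm' _ (h3 v hv))

/-- **Theorem W**: among the exterior relations `r'` between `r` and `r ⊔ wir Z` (`A ⊆ Z`), the
connection of `A` and `B` by open edges and `r` has the smallest probability for `r ⊔ wir Z`. -/
theorem worst (hw : ∀ e, 0 < w e) (hq : 0 < q) (hq1 : q ≤ 1) {r : Setoid X} (B : Set X) :
    ∀ {r' : Setoid X} {Z A : Set X}, r ≤ r' → r' ≤ r ⊔ wir Z → A ⊆ Z →
      GP a b w q D r' (Sep a b r A B) ≤ GP a b w q D (r ⊔ wir Z) (Sep a b r A B) := by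
  have hw' : ∀ e, 0 ≤ w e := fun e => (hw e).le
  have hswap : ∀ (D : Finset ι) (ρ : Setoid X) (A : Set X),
      GP a b w q D ρ (Sep a b r A B) = GP a b w q D ρ (Sep a b r B A) := by
    intro D ρ A
    refine GP_congr a b D hq (fun _ _ _ _ => Iff.rfl) fun S _ => ?_
    exact ⟨fun h x hx y hy k => h y hy x hx ((con a b r S).symm k),
      fun h x hx y hy k => h y hy x hx ((con a b r S).symm k)⟩
  induction hn : D.card generalizing D with
  | zero =>
    intro r' Z A _ _ _
    rw [card_eq_zero] at hn
    subst hn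
    by_cases h : Sep a b r A B ∅
    · rw [GP_true a b ∅ hw' hq (A := Sep a b r A B), GP_true a b ∅ hw' hq (A := Sep a b r A B)] <;>
      · intro S hS
        rwa [subset_empty.1 hS]
    · rw [GP_false a b ∅]
      · exact GP_nonneg a b ∅ hw' hq _
      · intro S hS
        rwa [subset_empty.1 hS]
  | succ n ih =>
    intro r' Z A hr1 hr2 hA
    by_cases hE : ∃ e ∈ D, ∃ t ∈ A, r t (a e) ∨ r t (b e)
    · obtain ⟨e, he, t, ht, hte⟩ := hE
      obtain ⟨x, y, hxy, hj, htx⟩ : ∃ x y : X, (∀ S, con a b r (insert e S) x y) ∧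
          join (a e) (b e) = join x y ∧ r t x ∧ (∀ S u v, con a b r (insert e S) u v ↔
            con a b r S u v ∨ (con a b r S u x ∧ con a b r S y v) ∨
              (con a b r S u y ∧ con a b r S x v)) := by
        rcases hte with hte | hte
        · exact ⟨a e, b e, fun S => con_edge a b r (mem_insert_self e S), rfl, hte,
            fun S u v => con_insert_iff a b r e S u v⟩
        · refine ⟨b e, a e, fun S => (con a b r _).symm (con_edge a b r (mem_insert_self e S)),
            ?_, hte, fun S u v => ?_⟩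
          · apply le_antisymm
            · exact join_le_iff'.2 (Setoid.symm' _ (join_le_iff'.1 le_rfl))
            · exact join_le_iff'.2 (Setoid.symm' _ (join_le_iff'.1 le_rfl))
          · rw [con_insert_iff]
            exact or_congr_right or_comm
      obtain ⟨htx, hins⟩ := htx
      have hD : insert e (D.erase e) = D := insert_erase he
      have hcard : (D.erase e).card = n := by
        rw [card_erase_of_mem he, hn]
        rfl
      have hne : e ∉ D.erase e := notMem_erase e D
      have htZ := hA ht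
      have hsep : ∀ S, Sep a b r A B (insert e S) ↔ Sep a b r (insert y A) B S := by
        intro S
        constructor
        · rintro h u (rfl | hu) v hv k
          · refine h t ht v hv ((hins S t v).2 (Or.inr (Or.inl ⟨le_con a b r S htx, k⟩)))
          · exact h u hu v hv (con_mono a b le_rfl (subset_insert e S) k)
        · intro h u hu v hv k
          rcases (hins S u v).1 k with k | ⟨-, k⟩ | ⟨-, k⟩
          · exact h u (Or.inr hu) v hv k
          · exact h y (Or.inl rfl) v hv k
          · exact h t (Or.inr ht) v hv ((con a b r S).trans (le_con a b r S htx) k)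
      have hsplit : ∀ ρ : Setoid X, GP a b w q D ρ (Sep a b r A B) =
          (GP a b w q (D.erase e) ρ (Sep a b r A B) + od a b (D.erase e) w q ρ e *
            GP a b w q (D.erase e) (ρ ⊔ join x y) (Sep a b r (insert y A) B)) /
              (1 + od a b (D.erase e) w q ρ e) := by
        intro ρ
        conv_lhs => rw [← hD]
        rw [GP_split a b _ hw hq ρ hne, hj]
        congr 3
        exact GP_congr a b _ hq (fun _ _ _ _ => Iff.rfl) fun S _ => hsep S
      have hZj : r ⊔ wir Z ⊔ join x y = r ⊔ wir (insert y Z) :=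
        sup_wir_insert htZ (r.symm htx)
      have i0 := ih (D.erase e) hcard hr1 hr2 hA
      have i1 := ih (D.erase e) hcard (r' := r' ⊔ join x y) (Z := insert y Z) (A := insert y A)
        (hr1.trans le_sup_left) (hZj ▸ sup_le_sup_right hr2 _) (Set.insert_subset_insert hA)
      have hm : GP a b w q (D.erase e) (r ⊔ wir (insert y Z)) (Sep a b r (insert y A) B) ≤
          GP a b w q (D.erase e) (r ⊔ wir Z) (Sep a b r A B) := by
        have := t1_by a b (D.erase e) hw' hq hq1 r B Z (Set.subset_insert y A)
        rw [← hswap, ← hswap] at this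
        have e1 : insert y A ∪ Z = insert y Z := by
          rw [Set.insert_union, Set.union_eq_self_of_subset_left hA]
        have e2 : A ∪ Z = Z := Set.union_eq_self_of_subset_left hA
        rwa [e1, e2] at this
      have ho : od a b (D.erase e) w q (r ⊔ wir Z) e ≤ od a b (D.erase e) w q r' e := by
        have h1 : r ⊔ wir Z = r' ⊔ wir Z :=
          le_antisymm (sup_le_sup_right hr1 _) (sup_le hr2 le_sup_right)
        rw [h1]
        refine od_le a b _ hw hq hq1 ?_
        rcases hte with hte | hte
        · exact Or.inl ⟨t, htZ, r'.symm (hr1 hte)⟩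
        · exact Or.inr ⟨t, htZ, r'.symm (hr1 hte)⟩
      have ho0 := od_nonneg a b (D.erase e) hw hq (r ⊔ wir Z) e
      rw [hsplit r', hsplit (r ⊔ wir Z), hZj]
      set o := od a b (D.erase e) w q (r ⊔ wir Z) e
      set o' := od a b (D.erase e) w q r' e
      set m0 := GP a b w q (D.erase e) (r ⊔ wir Z) (Sep a b r A B)
      set m1 := GP a b w q (D.erase e) (r ⊔ wir (insert y Z)) (Sep a b r (insert y A) B)
      rw [div_le_div_iff₀ (by linarith) (by linarith)]
      have hA1 := mul_le_mul_of_nonneg_left i1 (ho0.trans ho)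
      have hA2 : (GP a b w q (D.erase e) r' (Sep a b r A B) + o' *
          GP a b w q (D.erase e) (r' ⊔ join x y) (Sep a b r (insert y A) B)) * (1 + o) ≤
          (m0 + o' * m1) * (1 + o) :=
        mul_le_mul_of_nonneg_right (by linarith) (by linarith)
      nlinarith [mul_nonneg (sub_nonneg.2 ho) (sub_nonneg.2 hm)]
    · push Not at hE
      have hc : ∀ S ⊆ D, (Sep a b r A B S ↔ ∀ t ∈ A, ∀ v ∈ B, ¬ r t v) := by
        intro S hS
        constructor
        · exact fun h t ht v hv k => h t ht v hv (le_con a b r S k)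
        · exact fun h t ht v hv k => h t ht v hv (con_iso a b (fun e he => hE e (hS he) t ht) k)
      by_cases h : ∀ t ∈ A, ∀ v ∈ B, ¬ r t v
      · rw [GP_true a b D hw' hq fun S hS => (hc S hS).2 h,
          GP_true a b D hw' hq fun S hS => (hc S hS).2 h]
      · rw [GP_false a b D fun S hS k => h ((hc S hS).1 k)]
        exact GP_nonneg a b D hw' hq _

end Vale.Agent.P167.H262
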